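import Crest.Agent.X262.Fam6.Rem_Mg
import Crest.Agent.X262.Alg44.Basic
import Crest.Agent.X262.Fano21.Nrm
import Crest.Agent.X262.Top.Defs
import Crest.Agent.X262.Brg.Lines
import Crest.Agent.X262.Rig38.Rho
import Crest.Agent.R013.Puis_702
import Crest.Agent.X262.Alg44.Defs

-- ▼ part X262/Fam99/Fs
section

/-!
# Row 262, G4 / ALG (helper99): formal sections of a family are forms

* `FSm T M`      : the module of formal sections;
* `Bc T i`       : the chart ring of the family;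
* `exists_basis` : for large `M` formal sections are generated by forms with independent reductions;
* `adj_span`     : homogenisation after any homomorphism.
-/

set_option autoImplicit false

open PowerSeries Filter

noncomputable section

namespace Crest.Agent.X262.Fam99

open Crest.Agent.X277 Crest.Agent.X277.Lef Crest.Agent.X277.AN.G1 Crest.Agent.X277.BD
open Crest.Agent.X277.BD.Br (On oP kP At)
open Crest.Agent.X262.Mv99
open Crest.Agent.X262.Alg44

theorem aeval_mem {K A σ : Type*} [CommRing K] [CommRing A] [Algebra K A] {y : σ → A}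
    (W : ℕ → Submodule K A) (h0 : (1 : A) ∈ W 0) (h1 : ∀ j M, ∀ z ∈ W M, y j * z ∈ W (M + 1))
    {M : ℕ} {p : MvPolynomial σ K} (hp : p.IsHomogeneous M) : MvPolynomial.aeval y p ∈ W M := by
  have h2 : p ∈ MvPolynomial.homogeneousSubmodule σ K 1 ^ M := by
    rwa [MvPolynomial.homogeneousSubmodule_one_pow]
  clear hp
  induction h2 using Submodule.pow_induction_on_left' with
  | algebraMap r =>
    rw [AlgHom.commutes, Algebra.algebraMap_eq_smul_one]
    exact (W 0).smul_mem r h0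
  | add x y i _ _ hx hy => rw [map_add]; exact add_mem hx hy
  | mem_mul m hm i x _ hx =>
    rw [MvPolynomial.homogeneousSubmodule_one_eq_span_X] at hm
    induction hm using Submodule.span_induction with
    | mem m hm =>
      obtain ⟨j, rfl⟩ := hm
      rw [map_mul, MvPolynomial.aeval_X]
      exact h1 j i _ hx
    | zero => simp
    | add a b _ _ ha hb => rw [add_mul, map_add]; exact add_mem ha hb
    | smul c a _ ha => rw [smul_mul_assoc, map_smul]; exact Submodule.smul_mem _ c ha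

variable {F : Type} [Field F] [Algebra ℂ F] {P : PModel ℂ F} (T : Fam P)

instance tower : IsScalarTower ℂ ℂ⟦X⟧ F⟦X⟧ := IsScalarTower.of_algebraMap_eq fun c => by
  rw [PowerSeries.algebraMap_apply'', PowerSeries.algebraMap_apply, PowerSeries.algebraMap_apply,
    map_C]
  rfl

theorem map_mem_serR (x : Pts P) (c : ℂ⟦X⟧) : map (algebraMap ℂ F) c ∈ serR (oR x) := fun n => by
  rw [coeff_map]
  exact algebraMap_mem (lp x).O _

/-- the module of formal sections -/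
def FSm (M : ℕ) : Submodule ℂ⟦X⟧ F⟦X⟧ where
  carrier := T.FS M
  zero_mem' x i _ := ⟨0, zero_mem _, by simp⟩
  add_mem' hf hg x i hx := by
    obtain ⟨a, ha, rfl⟩ := hf x i hx
    obtain ⟨b, hb, rfl⟩ := hg x i hx
    exact ⟨a + b, add_mem ha hb, by rw [map_add, mul_add]⟩
  smul_mem' c f hf x i hx := by
    obtain ⟨a, ha, rfl⟩ := hf x i hx
    exact ⟨_, mul_mem (map_mem_serR x c) ha, by
      rw [Fam6.smul_eq, map_mul, Mv.ψ_map, mul_left_comm]⟩

theorem yt_ne (i : Fin (P.N + 1)) : constantCoeff (T.yt i) ≠ 0 := T.yt0 i ▸ P.y_ne i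

theorem yt_mul_inv (i : Fin (P.N + 1)) : T.yt i * (T.yt i)⁻¹ = 1 :=
  PowerSeries.mul_inv_cancel _ (yt_ne T i)

theorem one_mem_FS : (1 : F⟦X⟧) ∈ T.FS 0 := fun _ _ _ => ⟨1, one_mem _, by simp⟩

theorem yt_mem_FS (j : Fin (P.N + 1)) : T.yt j ∈ T.FS 1 := fun x i hx => by
  simpa using T.mem x i hx j

variable {T}

theorem mul_mem_FS {M M' : ℕ} {f g : F⟦X⟧} (hf : f ∈ T.FS M) (hg : g ∈ T.FS M') :
    f * g ∈ T.FS (M + M') := fun x i hx => by
  obtain ⟨a, ha, rfl⟩ := hf x i hx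
  obtain ⟨b, hb, rfl⟩ := hg x i hx
  exact ⟨a * b, mul_mem ha hb, by rw [map_mul, pow_add]; ring⟩

theorem pow_mem_FS (j : Fin (P.N + 1)) (M : ℕ) : T.yt j ^ M ∈ T.FS M := by
  induction M with
  | zero => simpa using one_mem_FS T
  | succ n ih => rw [pow_succ]; exact mul_mem_FS ih (yt_mem_FS T j)

theorem sat_FS {M : ℕ} {f : F⟦X⟧} (hf : X * f ∈ T.FS M) : f ∈ T.FS M := fun x i hx => by
  obtain ⟨a, ha, e⟩ := hf x i hx
  have h1 := congrArg constantCoeff e
  simp only [map_mul, constantCoeff_X, zero_mul, map_pow, Mv.const] at h1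
  have h2 := (mul_eq_zero.1 h1.symm).resolve_left (pow_ne_zero _ (yt_ne T i))
  refine ⟨sh a, sh_mem (M := (oR x).toAddSubgroup) ha, mul_left_cancel₀ X_ne_zero ?_⟩
  rw [e]
  conv_lhs => rw [eq_C_add a, h2]
  simp only [map_zero, zero_add, map_mul, Mv.ψX]
  ring

theorem const_mem_Sec {M : ℕ} {f : F⟦X⟧} (hf : f ∈ T.FS M) :
    constantCoeff f ∈ (M • oP P).Sec := Br.mem_Sec_of fun x => by
  obtain ⟨i, hi⟩ := exists_pat x
  obtain ⟨a, ha, rfl⟩ := hf x i hi
  refine ⟨_, (Br.at_y hi).nsmul M, ?_⟩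
  rw [map_mul, map_pow, T.yt0, Mv.const, mul_div_cancel_left₀ _ (pow_ne_zero _ (P.y_ne i))]
  exact const_mem (M := (oR x).toAddSubgroup) ha

variable (T)

/-- the chart ring of the family -/
def Bc (i : Fin (P.N + 1)) : Subalgebra ℂ⟦X⟧ F⟦X⟧ :=
  Algebra.adjoin ℂ⟦X⟧ (Set.range fun j => T.yt j * (T.yt i)⁻¹)

theorem const_aeval (p : MvPolynomial (Fin (P.N + 1)) ℂ) :
    constantCoeff (MvPolynomial.aeval T.yt p) = MvPolynomial.aeval P.y p := by
  induction p using MvPolynomial.induction_on with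
  | C c => simp [PowerSeries.algebraMap_apply]
  | add p q hp hq => simp only [map_add, hp, hq]
  | mul_X p j hp => simp only [map_mul, hp, MvPolynomial.aeval_X, T.yt0]

theorem aeval_spec {M : ℕ} {p : MvPolynomial (Fin (P.N + 1)) ℂ} (hp : p.IsHomogeneous M) :
    MvPolynomial.aeval T.yt p ∈ T.FS M ∧
      ∀ i, MvPolynomial.aeval T.yt p * (T.yt i)⁻¹ ^ M ∈ Bc T i := by
  refine ⟨aeval_mem (fun M => (FSm T M).restrictScalars ℂ) (one_mem_FS T)
    (fun j M z hz => add_comm 1 M ▸ mul_mem_FS (yt_mem_FS T j) hz) hp, fun i => ?_⟩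
  refine aeval_mem (fun M => ((Bc T i).toSubmodule.restrictScalars ℂ).comap
    (LinearMap.mulRight ℂ ((T.yt i)⁻¹ ^ M))) (by simp [one_mem]) (fun j M z hz => ?_) hp
  have := (Bc T i).mul_mem (Algebra.subset_adjoin ⟨j, rfl⟩) hz
  change _ ∈ Bc T i
  convert this using 1
  simp only [LinearMap.mulRight_apply]
  ring

/-- a good basis of the formal sections -/
structure GB (M : ℕ) where
  /-- the rank -/
  h : ℕ
  /-- the basis -/
  b : Fin h → F⟦X⟧
  ind : LinearIndependent ℂ fun k => constantCoeff (b k)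
  mem : ∀ k i, b k * (T.yt i)⁻¹ ^ M ∈ Bc T i
  gen : ∀ f ∈ T.FS M, ∃ c : Fin h → ℂ⟦X⟧, f = ∑ k, c k • b k

/-- **formal sections are forms** -/
theorem exists_basis (hG : GenSecStmt) : ∀ᶠ M in atTop, Nonempty (GB T M) := by
  obtain ⟨M0, h⟩ := hG F P Unit (fun _ => 1) ⟨(), one_ne_zero⟩
    (Br.mxf_mem fun x => ⟨(), one_ne_zero, fun _ => by simp⟩)
  refine eventually_atTop.2 ⟨M0, fun M hM => ?_⟩
  let V := (MvPolynomial.homogeneousSubmodule (Fin (P.N + 1)) ℂ M).map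
    (MvPolynomial.aeval P.y).toLinearMap
  have : Module.Finite ℂ (MvPolynomial.homogeneousSubmodule (Fin (P.N + 1)) ℂ M) :=
    Module.Finite.iff_fg.2 (MvPolynomial.homogeneousSubmodule_fg _ _ _)
  let v := Module.finBasis ℂ V
  choose β h1 h2 using fun k => (v k).2
  have h3 : (fun k => constantCoeff (MvPolynomial.aeval T.yt (β k))) = fun k => (v k : F) :=
    funext fun k => (const_aeval T _).trans (h2 k)
  refine ⟨⟨_, fun k => MvPolynomial.aeval T.yt (β k), ?_, fun k => (aeval_spec T (h1 k)).2,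
    fun f hf => Fam6.mem_span_adic (W := FSm T M) (fun _ => sat_FS)
      (fun k => (aeval_spec T (h1 k)).1) (fun g hg => ?_) hf⟩⟩
  · rw [h3]
    exact v.linearIndependent.map' V.subtype V.ker_subtype
  · obtain ⟨p, h4, h5⟩ := h M hM (1 * constantCoeff g)
      (mul_mem_Sec (mem_Sec_mxf (fun _ : Unit => (1 : F)) ()) (const_mem_Sec hg))
    have h6 : constantCoeff g ∈ V := ⟨p (), h4 (), by simpa using h5.symm⟩
    have h7 := Submodule.mem_map_of_mem (f := V.subtype) (v.mem_span ⟨_, h6⟩)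
    rw [Submodule.map_span, ← Set.range_comp] at h7
    rw [h3]
    exact h7

variable {T}

theorem GB.div_mem {M : ℕ} (B : GB T M) {f : F⟦X⟧} (hf : f ∈ T.FS M) (i : Fin (P.N + 1)) :
    f * (T.yt i)⁻¹ ^ M ∈ Bc T i := by
  obtain ⟨c, rfl⟩ := B.gen f hf
  rw [Finset.sum_mul]
  exact sum_mem fun k _ => by rw [smul_mul_assoc]; exact Subalgebra.smul_mem _ (B.mem k i) _

section Adj

variable {K A : Type*} [CommRing K] [CommRing A] [Algebra K A] (φ : F⟦X⟧ →+* A)

/-- homogenisation -/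
theorem adj_span {i : Fin (P.N + 1)} {f : A}
    (hf : f ∈ Algebra.adjoin K (Set.range fun j => φ (T.yt j * (T.yt i)⁻¹))) :
    ∀ᶠ M in atTop, f * φ (T.yt i) ^ M ∈ Submodule.span K (φ '' T.FS M) := by
  induction hf using Algebra.adjoin_induction with
  | mem f hf =>
    obtain ⟨j, rfl⟩ := hf
    refine eventually_atTop.2 ⟨1, fun M hM => Submodule.subset_span ?_⟩
    obtain ⟨n, rfl⟩ := Nat.exists_eq_add_of_le hM
    refine ⟨_, mul_mem_FS (yt_mem_FS T j) (pow_mem_FS i n), ?_⟩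
    rw [← map_pow, ← map_mul]
    congr 1
    linear_combination -(T.yt j * T.yt i ^ n) * yt_mul_inv T i
  | algebraMap c =>
    refine Eventually.of_forall fun M => ?_
    rw [← Algebra.smul_def]
    exact Submodule.smul_mem _ _ (Submodule.subset_span ⟨_, pow_mem_FS i M, map_pow _ _ _⟩)
  | add f g _ _ hf hg =>
    filter_upwards [hf, hg] with M h1 h2
    rw [add_mul]
    exact add_mem h1 h2
  | mul f g _ _ hf hg =>
    obtain ⟨a, ha⟩ := eventually_atTop.1 hf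
    obtain ⟨b, hb⟩ := eventually_atTop.1 hg
    refine eventually_atTop.2 ⟨a + b, fun M hM => ?_⟩
    obtain ⟨n, rfl⟩ := Nat.exists_eq_add_of_le hM
    have h1 := Submodule.mul_mem_mul (ha a le_rfl) (hb (b + n) (Nat.le_add_right _ _))
    rw [Submodule.span_mul_span, mul_mul_mul_comm, ← pow_add, ← add_assoc] at h1
    refine Submodule.span_mono ?_ h1
    rintro _ ⟨_, ⟨u, hu, rfl⟩, _, ⟨v, hv, rfl⟩, rfl⟩
    exact ⟨u * v, add_assoc a b n ▸ mul_mem_FS hu hv, map_mul _ _ _⟩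

theorem GB.span {M : ℕ} (B : GB T M)
    (hφ : ∀ c : ℂ⟦X⟧, ∃ κ : K, φ (map (algebraMap ℂ F) c) = algebraMap K A κ) {z : A}
    (hz : z ∈ Submodule.span K (φ '' T.FS M)) : ∃ a : Fin B.h → K, ∑ k, a k • φ (B.b k) = z := by
  rw [← Submodule.mem_span_range_iff_exists_fun]
  refine Submodule.span_le.2 ?_ hz
  rintro _ ⟨f, hf, rfl⟩
  obtain ⟨c, rfl⟩ := B.gen f hf
  rw [map_sum]
  refine sum_mem fun k _ => ?_
  obtain ⟨κ, h⟩ := hφ (c k)
  rw [Fam6.smul_eq, map_mul, h, ← Algebra.smul_def]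
  exact Submodule.smul_mem _ _ (Submodule.subset_span ⟨k, rfl⟩)

end Adj

end Crest.Agent.X262.Fam99
end
end

-- ▼ part X262/Fam99/Inst
section

/-!
# Row 262, G4 / ALG (helper99): the generic fibre of a formal family

* `Tw F Ω`     : an abstract field of Puiseux series;
* `fld`, `pre` : the function field of the generic fibre and its coordinates;
* `hFS`        : formal sections of `O(1)` are algebraic;
* `pic`, `rig` : factorial local rings, rigidity.
-/

set_option autoImplicit false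

open PowerSeries Filter

noncomputable section

namespace Crest.Agent.X262.Fam99

open Crest.Agent.X277 Crest.Agent.X277.Lef Crest.Agent.X277.AN.G1 Crest.Agent.X277.BD
open Crest.Agent.X277.BD.Br (On oP kP At)
open Crest.Agent.X262.Mv99
open Crest.Agent.X262.Alg44
open Crest.Agent.X262.Surf (B2)

/-- an abstract field of Puiseux series -/
structure Tw (F Ω : Type) [Field F] [Algebra ℂ F] [Field Ω] [Algebra ℂ Ω] where
  /-- the reduction -/
  R : Red F Ω
  /-- power series in `t ^ (1 / e)` -/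
  ie : (e : ℕ) → e ≠ 0 → F⟦X⟧ →+* Ω
  inj : ∀ e he, Function.Injective (ie e he)
  exp : ∀ e k (he : e ≠ 0) (hk : k ≠ 0) f,
    ie (e * k) (mul_ne_zero he hk) (expand k hk f) = ie e he f
  /-- constants -/
  th : (e : ℕ) → e ≠ 0 → ℂ⟦X⟧ →+* ℂ
  ie_map : ∀ e he g, ie e he (map (algebraMap ℂ F) g) = algebraMap ℂ Ω (th e he g)
  mem : ∀ e he f, ie e he f ∈ R.O
  r_ie : ∀ e he f, R.r (ie e he f) = constantCoeff f
  lev : ∀ z ∈ R.O, ∃ e he f, ie e he f = z
  levc : ∀ c ∈ R.o, ∃ e he g, th e he g = c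

/-- for all sufficiently divisible levels -/
def Ev (p : (e : ℕ) → e ≠ 0 → Prop) : Prop := ∃ e₀ : ℕ, e₀ ≠ 0 ∧ ∀ e he, e₀ ∣ e → p e he

section Ev

variable {p q : (e : ℕ) → e ≠ 0 → Prop}

theorem Ev.of (h : ∀ e he, p e he) : Ev p := ⟨1, one_ne_zero, fun e he _ => h e he⟩

theorem Ev.mono (h : Ev p) (h' : ∀ e he, p e he → q e he) : Ev q :=
  h.imp fun _ h => ⟨h.1, fun e he hd => h' e he (h.2 e he hd)⟩

theorem Ev.and (h : Ev p) (h' : Ev q) : Ev fun e he => p e he ∧ q e he := by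
  obtain ⟨a, ha, h⟩ := h
  obtain ⟨b, hb, h'⟩ := h'
  exact ⟨a * b, mul_ne_zero ha hb, fun e he hd =>
    ⟨h e he (dvd_of_mul_right_dvd hd), h' e he (dvd_of_mul_left_dvd hd)⟩⟩

theorem Ev.all {ι : Type*} [Fintype ι] {p : ι → (e : ℕ) → e ≠ 0 → Prop} (h : ∀ i, Ev (p i)) :
    Ev fun e he => ∀ i, p i e he := by
  choose a ha h using h
  exact ⟨∏ i, a i, Finset.prod_ne_zero_iff.2 fun i _ => ha i, fun e he hd i =>
    h i e he ((Finset.dvd_prod_of_mem a (Finset.mem_univ i)).trans hd)⟩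

theorem Ev.exists (h : Ev p) : ∃ e he, p e he := h.elim fun e h => ⟨e, h.1, h.2 e h.1 dvd_rfl⟩

theorem Ev.exists_mul (h : Ev p) {e : ℕ} (he : e ≠ 0) :
    ∃ k, ∃ hk : k ≠ 0, p (e * k) (mul_ne_zero he hk) :=
  h.elim fun k h => ⟨k, h.1, h.2 _ _ (dvd_mul_left k e)⟩

end Ev

section Pic

variable {F E : Type} [Field F] [Algebra ℂ F] [Field E] [Algebra ℂ E] {R : Red F E}
  {P : PModel ℂ F} (G : Pre R P)

theorem exists_den (x : Pts P) (f : E) : ∃ d ∈ G.Lo x, d ≠ 0 ∧ f * d ∈ G.Lo x := by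
  obtain ⟨i, hi⟩ := exists_pat x
  have key : ∀ a ∈ chart ℂ G.y 0, ∃ d ∈ G.Lo x, d ≠ 0 ∧ a * d ∈ G.Lo x := by
    intro a ha
    induction ha using Algebra.adjoin_induction with
    | mem a ha =>
      obtain ⟨j, rfl⟩ := ha
      refine ⟨G.y 0 / G.y i, Pre.Ao_le_Lo hi (Red.div_mem_Ao _ _ _),
        div_ne_zero (G.y_ne 0) (G.y_ne i), ?_⟩
      rw [div_mul_div_cancel₀ (G.y_ne 0)]
      exact Pre.Ao_le_Lo hi (Red.div_mem_Ao _ _ _)
    | algebraMap c =>
      by_cases hc : c ∈ R.o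
      · exact ⟨1, one_mem _, one_ne_zero, by
          rw [mul_one]; exact Pre.Ao_le_Lo hi (Red.cst_mem_Ao _ _ hc)⟩
      · have h0 : c ≠ 0 := fun h => hc (h ▸ zero_mem _)
        exact ⟨_, Pre.Ao_le_Lo hi (Red.cst_mem_Ao _ _ (Red.inv_of_not_mem hc).1),
          by simpa using h0, by rw [← map_mul, mul_inv_cancel₀ h0, map_one]; exact one_mem _⟩
    | add a b _ _ ha hb =>
      obtain ⟨c, h1, h2, h3⟩ := ha
      obtain ⟨d, h4, h5, h6⟩ := hb
      refine ⟨c * d, mul_mem h1 h4, mul_ne_zero h2 h5, ?_⟩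
      convert add_mem (mul_mem h3 h4) (mul_mem h6 h1) using 1
      ring
    | mul a b _ _ ha hb =>
      obtain ⟨c, h1, h2, h3⟩ := ha
      obtain ⟨d, h4, h5, h6⟩ := hb
      exact ⟨c * d, mul_mem h1 h4, mul_ne_zero h2 h5, mul_mul_mul_comm a c b d ▸ mul_mem h3 h6⟩
  obtain ⟨a, ha, c, hc, h0, rfl⟩ := G.frac f
  obtain ⟨d, h1, h2, h3⟩ := key a ha
  obtain ⟨d', h4, h5, h6⟩ := key c hc
  refine ⟨c * d' * d, mul_mem h6 h1, mul_ne_zero (mul_ne_zero h0 h5) h2, ?_⟩
  convert mul_mem h3 h4 using 1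
  field_simp

theorem exists_den_fam (x : Pts P) {ι : Type} [Fintype ι] (f : ι → E) :
    ∃ d ∈ G.Lo x, d ≠ 0 ∧ ∀ j, f j * d ∈ G.Lo x := by
  classical
  choose d h1 h2 h3 using fun j => exists_den G x (f j)
  refine ⟨∏ j, d j, prod_mem fun j _ => h1 j, Finset.prod_ne_zero_iff.2 fun j _ => h2 j,
    fun j => ?_⟩
  rw [← Finset.mul_prod_erase _ d (Finset.mem_univ j), ← mul_assoc]
  exact mul_mem (h3 j) (prod_mem fun l _ => h1 l)

theorem exists_cst_fam {x : Pts P} {ι : Type} [Fintype ι] {f : ι → E} (hf : ∀ j, f j ∈ G.Lk x) :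
    ∃ c ∈ R.o, c ≠ 0 ∧ ∀ j, c • f j ∈ G.Lo x := by
  classical
  have : ∀ j, ∃ c ∈ R.o, c ≠ 0 ∧ c • f j ∈ G.Lo x := fun j => by
    obtain ⟨c, h0, h⟩ := hf j
    by_cases hc : c ∈ R.o
    · exact ⟨c, hc, h0, h⟩
    · refine ⟨1, one_mem _, one_ne_zero, ?_⟩
      rw [← inv_mul_cancel₀ h0, mul_smul]
      exact Pre.smul_mem_Lo (Red.inv_of_not_mem hc).1 h
  choose c h1 h2 h3 using this
  refine ⟨∏ j, c j, prod_mem fun j _ => h1 j, Finset.prod_ne_zero_iff.2 fun j _ => h2 j,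
    fun j => ?_⟩
  rw [← Finset.prod_erase_mul _ c (Finset.mem_univ j), mul_smul]
  exact Pre.smul_mem_Lo (prod_mem fun l _ => h1 l) (h3 j)

/-- local rings which are unions of factorial rings -/
theorem pic_of (h : ∀ (x : Pts P) (ι : Type) [Fintype ι] (z : ι → E), (∀ i, z i ∈ G.Lo x) →
    ∃ (A : Type) (_ : CommRing A) (_ : IsDomain A) (_ : UniqueFactorizationMonoid A)
      (χ : A →+* E), Function.Injective χ ∧ (∀ a, χ a ∈ G.Lo x) ∧ ∀ i, ∃ a, χ a = z i) :
    G.Pic := by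
  classical
  intro x n m f g u h1 _ h3
  obtain ⟨d, d1, d2, d3⟩ := exists_den_fam G x f
  obtain ⟨d', d4, d5, d6⟩ := exists_den_fam G x g
  obtain ⟨c, c1, c2, c3⟩ := exists_cst_fam G (f := fun p : Fin n × Fin m => f p.1 * g p.2)
    fun p => h1 p.1 p.2
  obtain ⟨A, _, _, _, χ, hχ, h4, h5⟩ := h x (Fin n ⊕ Fin m ⊕ Fin n × Fin m ⊕ Unit)
    (Sum.elim (fun j => f j * d) (Sum.elim (fun l => c • (g l * d'))
      (Sum.elim (fun p => c • (f p.1 * g p.2)) fun _ => d * d'))) (by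
    rintro (j | l | p | _)
    exacts [d3 j, Pre.smul_mem_Lo c1 (d6 l), c3 p, mul_mem d1 d4])
  choose a ha using fun j => h5 (.inl j)
  choose b hb using fun l => h5 (.inr (.inl l))
  choose w hw using fun p => h5 (.inr (.inr (.inl p)))
  obtain ⟨δ, hδ⟩ := h5 (.inr (.inr (.inr ())))
  simp only [Sum.elim_inl, Sum.elim_inr] at ha hb hw hδ
  let := UniqueFactorizationMonoid.strongNormalizationMonoid (α := A)
  let := UniqueFactorizationMonoid.toNormalizedGCDMonoid A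
  have h6 : χ (Finset.univ.gcd a) ≠ 0 := fun h0 => by
    rw [map_eq_zero_iff χ hχ, Finset.gcd_eq_zero_iff] at h0
    have : ∀ j, f j = 0 := fun j => (mul_eq_zero.1 (by
      rw [← ha, h0 j (Finset.mem_univ j), map_zero])).resolve_right d2
    simp [this] at h3
  refine ⟨χ (Finset.univ.gcd a) / d, div_ne_zero h6 d2, fun j => Pre.Lo_le_Lk ?_,
    fun l => ⟨c, c2, ?_⟩⟩
  · obtain ⟨q, hq⟩ := Finset.gcd_dvd (f := a) (Finset.mem_univ j)
    rw [div_div_eq_mul_div, ← ha, hq, map_mul, mul_div_cancel_left₀ _ h6]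
    exact h4 q
  · obtain ⟨q, hq⟩ : δ ∣ Finset.univ.gcd a * b l :=
      (Finset.dvd_gcd (f := fun j => a j * b l) fun j _ => ⟨w (j, l), hχ (by
        simp only [map_mul, ha, hb, hw, hδ, Algebra.smul_def]
        ring)⟩).trans (Finset.gcd_mul_right' _ _ (b l)).dvd
    have h7 := congrArg χ hq
    rw [map_mul, map_mul, hb, hδ] at h7
    convert h4 q using 1
    rw [Algebra.smul_def] at h7 ⊢
    field_simp
    refine mul_left_cancel₀ d5 ?_
    linear_combination h7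

end Pic

variable {F Ω : Type} [Field F] [Algebra ℂ F] [Field Ω] [Algebra ℂ Ω] {P : PModel ℂ F}
  (W : Tw F Ω) (T : Fam P)

theorem Tw.ie_inv {e : ℕ} {he : e ≠ 0} {f : F⟦X⟧} (hf : constantCoeff f ≠ 0) :
    W.ie e he f⁻¹ = (W.ie e he f)⁻¹ :=
  eq_inv_of_mul_eq_one_right (by rw [← map_mul, PowerSeries.mul_inv_cancel _ hf, map_one])

theorem Tw.exp1 (e : ℕ) (he : e ≠ 0) (f : F⟦X⟧) :
    W.ie e he (expand e he f) = W.ie 1 one_ne_zero f := by
  have := W.exp 1 e one_ne_zero he f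
  simpa only [one_mul] using this

theorem Tw.ev_lev {z : Ω} (hz : z ∈ W.R.O) : Ev fun e he => ∃ f, W.ie e he f = z := by
  obtain ⟨e, he, f, rfl⟩ := W.lev z hz
  refine ⟨e, he, ?_⟩
  rintro _ h ⟨k, rfl⟩
  exact ⟨_, W.exp e k he (right_ne_zero_of_mul h) f⟩

theorem Tw.ev_levc {c : ℂ} (hc : c ∈ W.R.o) :
    Ev fun e he => ∃ g, W.ie e he (map (algebraMap ℂ F) g) = algebraMap ℂ Ω c := by
  obtain ⟨e, he, g, rfl⟩ := W.levc c hc
  refine ⟨e, he, ?_⟩
  rintro _ h ⟨k, rfl⟩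
  exact ⟨expand k (right_ne_zero_of_mul h) g, by rw [map_expand, W.exp e k he, W.ie_map]⟩

theorem Tw.th_mem (e : ℕ) (he : e ≠ 0) (g : ℂ⟦X⟧) : W.th e he g ∈ W.R.o := by
  rw [Red.mem_o, ← W.ie_map]
  exact W.mem _ _ _

/-- the function field of the generic fibre -/
def fld : IntermediateField ℂ Ω :=
  IntermediateField.adjoin ℂ (Set.range fun i => W.ie 1 one_ne_zero (T.yt i))

/-- the reduction -/
abbrev red : Red F (fld W T) := W.R.comap (fld W T).val

/-- the coordinates -/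
def yy (i : Fin (P.N + 1)) : fld W T :=
  ⟨W.ie 1 one_ne_zero (T.yt i), IntermediateField.subset_adjoin _ _ ⟨i, rfl⟩⟩


theorem coe_div (i j : Fin (P.N + 1)) :
    ((yy W T j / yy W T i : fld W T) : Ω) = W.ie 1 one_ne_zero (T.yt j * (T.yt i)⁻¹) := by
  rw [map_mul, W.ie_inv (yt_ne T i), ← div_eq_mul_inv]
  rfl

variable {W T}

theorem adj_Ao {i : Fin (P.N + 1)} {ε : F⟦X⟧ →+* Ω} {g : Fin (P.N + 1) → F⟦X⟧}
    (hε : ∀ c : ℂ⟦X⟧, ∃ κ ∈ W.R.o, ε (map (algebraMap ℂ F) c) = algebraMap ℂ Ω κ)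
    (hg : ∀ j, ε (g j) = W.ie 1 one_ne_zero (T.yt j * (T.yt i)⁻¹)) {b : F⟦X⟧}
    (hb : b ∈ Algebra.adjoin ℂ⟦X⟧ (Set.range g)) :
    ∃ z ∈ (red W T).Ao (yy W T) i, (z : Ω) = ε b := by
  induction hb using Algebra.adjoin_induction with
  | mem b hb =>
    obtain ⟨j, rfl⟩ := hb
    exact ⟨_, Red.div_mem_Ao _ i j, (coe_div W T i j).trans (hg j).symm⟩
  | algebraMap c =>
    obtain ⟨κ, h1, h2⟩ := hε c
    exact ⟨_, Red.cst_mem_Ao _ i (Red.mem_comap_o.2 h1), h2.symm⟩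
  | add a b _ _ ha hb =>
    obtain ⟨z, h1, h2⟩ := ha
    obtain ⟨z', h3, h4⟩ := hb
    exact ⟨z + z', add_mem h1 h3, by rw [map_add, ← h2, ← h4]; rfl⟩
  | mul a b _ _ ha hb =>
    obtain ⟨z, h1, h2⟩ := ha
    obtain ⟨z', h3, h4⟩ := hb
    exact ⟨z * z', mul_mem h1 h3, by rw [map_mul, ← h2, ← h4]; rfl⟩

theorem Bc_Ao {i : Fin (P.N + 1)} {b : F⟦X⟧} (hb : b ∈ Bc T i) :
    ∃ z ∈ (red W T).Ao (yy W T) i, (z : Ω) = W.ie 1 one_ne_zero b :=
  adj_Ao (fun c => ⟨_, W.th_mem _ _ c, W.ie_map _ _ c⟩) (fun _ => rfl) hb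

theorem map_chart (i : Fin (P.N + 1)) : (chart ℂ (yy W T) i).map (fld W T).val =
    Algebra.adjoin ℂ (Set.range fun j => W.ie 1 one_ne_zero (T.yt j * (T.yt i)⁻¹)) := by
  rw [chart, AlgHom.map_adjoin, ← Set.range_comp]
  congr 2
  exact funext fun j => coe_div W T i j

variable (W T) in
/-- the coordinates of the generic fibre -/
def pre (hG : GenSecStmt) : Pre (red W T) P where
  y := yy W T
  y_mem _ := W.mem _ _ _
  y_r i := (W.r_ie _ _ _).trans (T.yt0 i)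
  frac f := by
    obtain ⟨a, ha, c, hc, h⟩ := IntermediateField.mem_adjoin_iff_div.1 f.2
    have h1 : Algebra.adjoin ℂ (Set.range fun i => W.ie 1 one_ne_zero (T.yt i)) =
        (chart ℂ (yy W T) 0).map (fld W T).val := by simp [map_chart, T.one]
    rw [h1] at ha hc
    obtain ⟨a, ha, rfl⟩ := ha
    obtain ⟨c, hc, rfl⟩ := hc
    have h2 : f = a / c := Subtype.ext h
    by_cases h0 : c = 0
    · exact ⟨0, zero_mem _, 1, one_mem _, one_ne_zero, by simp [h2, h0]⟩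
    · exact ⟨a, ha, c, hc, h0, h2⟩
  sat i f hf h := by
    obtain ⟨M, ⟨B⟩, h1⟩ := ((exists_basis T hG).and (adj_span (W.ie 1 one_ne_zero)
      (map_chart (W := W) (T := T) i ▸ Subalgebra.mem_map.2 ⟨f, hf, rfl⟩))).exists
    obtain ⟨a, ha⟩ := B.span _ (fun c => ⟨_, W.ie_map _ _ c⟩) h1
    have h2 := Red.mem_o_of_indep (R := W.R) (fun k => W.mem _ _ (B.b k))
      (by simpa only [W.r_ie] using B.ind) (a := a)
      (ha.symm ▸ W.R.O.mul_mem h (pow_mem (W.mem _ _ _) M))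
    choose z h3 h4 using fun k => Bc_Ao (W := W) (B.mem k i)
    have h5 : f = ∑ k, a k • z k := Subtype.ext (by
      have h6 : W.ie 1 one_ne_zero (T.yt i) * W.ie 1 one_ne_zero (T.yt i)⁻¹ = 1 := by
        rw [← map_mul, yt_mul_inv, map_one]
      have h7 := congrArg (· * W.ie 1 one_ne_zero (T.yt i)⁻¹ ^ M) ha
      simp only [mul_assoc, ← mul_pow, h6, one_pow, mul_one, Finset.sum_mul, smul_mul_assoc] at h7
      simp only [IntermediateField.coe_sum, IntermediateField.coe_smul, h4, map_mul, map_pow]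
      exact h7.symm)
    exact h5 ▸ sum_mem fun k _ => Red.smul_mem_Ao (Red.mem_comap_o.2 (h2 k)) (h3 k)

variable {hG : GenSecStmt}


/-- formal sections of `O(1)` are algebraic -/
theorem hFS (h : (pre W T hG).Sm) {f : F⟦X⟧} (hf : f ∈ T.FS 1) :
    ∃ s ∈ (oP ((pre W T hG).gen h)).Sec, (fld W T).val s = W.ie 1 one_ne_zero f := by
  obtain ⟨M, h1⟩ := eventually_atTop.1 (exists_basis T hG)
  obtain ⟨B⟩ := h1 (1 + M) (Nat.le_add_left _ _)
  have h2 : ∀ i, f * (T.yt i)⁻¹ ∈ Bc T i := fun i => by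
    convert B.div_mem (mul_mem_FS hf (pow_mem_FS i M)) i using 1
    rw [pow_add, pow_one, mul_mul_mul_comm, ← mul_pow, yt_mul_inv, one_pow, mul_one]
  choose z h3 h4 using fun i => Bc_Ao (W := W) (h2 i)
  have h5 : (z 0 : Ω) = W.ie 1 one_ne_zero f := by simp [h4, T.one]
  refine ⟨z 0, Br.mem_Sec_of (P := (pre W T hG).gen h) fun x => ?_, h5⟩
  obtain ⟨i, hi⟩ := exists_pat x
  refine ⟨_, Br.at_y hi, ?_⟩
  have h6 : z 0 / yy W T i = z i := Subtype.ext (by
    rw [h4, map_mul, W.ie_inv (yt_ne T i), ← div_eq_mul_inv, ← h5]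
    rfl)
  exact (show z 0 / yy W T i ∈ _ from h6 ▸ A_le hi (Pre.Ao_le_chart (G := pre W T hG) (h3 i)))

/-! ### the local rings at a finite level -/

section Lvl

variable (T) (x : Pts P) (i : Fin (P.N + 1)) (e : ℕ) (he : e ≠ 0)

/-- base change followed by the trivialisation at `x` -/
def θ : F⟦X⟧ →+* F⟦X⟧ :=
  (lev e he (T.m x)).inv.ψ.comp (expand e he : F⟦X⟧ →ₐ[F] F⟦X⟧).toRingHom

theorem θ_apply (f : F⟦X⟧) : θ T x e he f = (lev e he (T.m x)).inv.ψ (expand e he f) := rfl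

theorem θ_const (f : F⟦X⟧) : constantCoeff (θ T x e he f) = constantCoeff f := by
  rw [θ_apply, Mv.const, constantCoeff_expand]

variable (W) in
/-- the embedding at the level `e` -/
def emb : F⟦X⟧ →+* Ω := (W.ie e he).comp (lev e he (T.m x)).ψ

theorem emb_θ (f : F⟦X⟧) : emb W T x e he (θ T x e he f) = W.ie 1 one_ne_zero f := by
  rw [θ_apply, emb, RingHom.comp_apply, Mv.ψ_inv, W.exp1]

theorem emb_map (c : ℂ⟦X⟧) : emb W T x e he (map (algebraMap ℂ F) c) =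
    W.ie e he (map (algebraMap ℂ F) c) := by rw [emb, RingHom.comp_apply, Mv.ψ_map]

theorem emb_inj : Function.Injective (emb W T x e he) := (W.inj e he).comp (Mv.bij _).1

theorem r_emb (f : F⟦X⟧) : W.R.r (emb W T x e he f) = constantCoeff f :=
  (W.r_ie _ _ _).trans (Mv.const _ f)

/-- the chart ring at the level `e` -/
def Be : Subalgebra ℂ⟦X⟧ F⟦X⟧ :=
  Algebra.adjoin ℂ⟦X⟧ (Set.range fun j => θ T x e he (T.yt j * (T.yt i)⁻¹))

variable {T x i e he}

theorem Be_le (hx : x ∈ pat P i) {b : F⟦X⟧} (hb : b ∈ Be T x i e he) : b ∈ serR (oR x) := by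
  induction hb using Algebra.adjoin_induction with
  | mem b hb =>
    obtain ⟨j, rfl⟩ := hb
    obtain ⟨g, hg, h⟩ := T.mem x i hx j
    have : T.yt j * (T.yt i)⁻¹ = (T.m x).ψ g := by
      rw [h, mul_right_comm, yt_mul_inv, one_mul]
    simp only [this, θ_apply]
    rw [← isLev_lev, Mv.inv_ψ]
    exact expand_mem hg
  | algebraMap c => exact map_mem_serR x c
  | add a b _ _ ha hb => exact add_mem ha hb
  | mul a b _ _ ha hb => exact mul_mem ha hb

theorem θ_map (c : ℂ⟦X⟧) : θ T x e he (map (algebraMap ℂ F) c) =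
    algebraMap ℂ⟦X⟧ F⟦X⟧ (expand e he c) := by
  rw [θ_apply, ← map_expand, Mv.ψ_map]
  rfl

theorem θ_mem {b : F⟦X⟧} (hb : b ∈ Bc T i) : θ T x e he b ∈ Be T x i e he := by
  induction hb using Algebra.adjoin_induction with
  | mem b hb =>
    obtain ⟨j, rfl⟩ := hb
    exact Algebra.subset_adjoin ⟨j, rfl⟩
  | algebraMap c => exact (θ_map (T := T) (x := x) (he := he) c).symm ▸ algebraMap_mem _ _
  | add a b _ _ ha hb => rw [map_add]; exact add_mem ha hb
  | mul a b _ _ ha hb => rw [map_mul]; exact mul_mem ha hb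

theorem Be_sat (hG : GenSecStmt) {f : F⟦X⟧} (hf : X * f ∈ Be T x i e he) :
    f ∈ Be T x i e he := by
  obtain ⟨M, ⟨B⟩, h1⟩ := ((exists_basis T hG).and (adj_span (θ T x e he) hf)).exists
  obtain ⟨a, ha⟩ := B.span _ (fun c => ⟨_, θ_map c⟩) h1
  have h2 := congrArg constantCoeff ha
  simp only [map_sum, Fam6.const_smul, θ_const, map_mul, constantCoeff_X, zero_mul] at h2
  have h3 := Fintype.linearIndependent_iff.1 B.ind _ h2
  have h4 : f = ∑ k, sh (a k) • θ T x e he (B.b k * (T.yt i)⁻¹ ^ M) := by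
    refine mul_left_cancel₀ X_ne_zero ?_
    have h6 : θ T x e he (T.yt i) * θ T x e he (T.yt i)⁻¹ = 1 := by
      rw [← map_mul, yt_mul_inv, map_one]
    have h7 := congrArg (· * θ T x e he (T.yt i)⁻¹ ^ M) ha
    simp only [mul_assoc, ← mul_pow, h6, one_pow, mul_one, Finset.sum_mul, smul_mul_assoc] at h7
    rw [← h7, Finset.mul_sum]
    refine Finset.sum_congr rfl fun k _ => ?_
    conv_lhs => rw [eq_C_add (a k), h3 k, map_zero, zero_add, mul_smul, Fam6.smul_eq, map_X]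
    rw [map_mul, map_pow]
  exact h4 ▸ sum_mem fun k _ => Subalgebra.smul_mem _ (θ_mem (B.mem k i)) _

theorem Be_sur {a : F} (ha : a ∈ P.A i) : ∃ b ∈ Be T x i e he, constantCoeff b = a := by
  induction ha using Algebra.adjoin_induction with
  | mem a ha =>
    obtain ⟨j, rfl⟩ := ha
    exact ⟨_, Algebra.subset_adjoin ⟨j, rfl⟩, by
      simp [θ_const, constantCoeff_inv, T.yt0, div_eq_mul_inv]⟩
  | algebraMap c => exact ⟨_, algebraMap_mem _ (C c), by simp [algebraMap_apply'']⟩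
  | add a b _ _ ha hb =>
    obtain ⟨u, h1, rfl⟩ := ha
    obtain ⟨v, h2, rfl⟩ := hb
    exact ⟨u + v, add_mem h1 h2, map_add _ _ _⟩
  | mul a b _ _ ha hb =>
    obtain ⟨u, h1, rfl⟩ := ha
    obtain ⟨v, h2, rfl⟩ := hb
    exact ⟨u * v, mul_mem h1 h2, map_mul _ _ _⟩

theorem ev_mul_ne {c d : F⟦X⟧} (hc : ev (constantCoeff c) x ≠ 0) (hd : ev (constantCoeff d) x ≠ 0) :
    ev (constantCoeff (c * d)) x ≠ 0 := by
  rw [map_mul, ev, (lp x).v_mul (LP.mem_of_ne hc) (LP.mem_of_ne hd)]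
  exact mul_ne_zero hc hd

variable (T x i e he) in
/-- the local ring at the level `e` -/
def Ae : Subring F⟦X⟧ where
  carrier := {a | ∃ c ∈ Be T x i e he, ev (constantCoeff c) x ≠ 0 ∧ a * c ∈ Be T x i e he}
  zero_mem' := ⟨1, one_mem _, by simp [ev, LP.v_one], by simp⟩
  one_mem' := ⟨1, one_mem _, by simp [ev, LP.v_one], by simp⟩
  add_mem' := by
    rintro a b ⟨c, h1, h2, h3⟩ ⟨d, h4, h5, h6⟩
    refine ⟨c * d, mul_mem h1 h4, ev_mul_ne h2 h5, ?_⟩
    convert add_mem (mul_mem h3 h4) (mul_mem h6 h1) using 1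
    ring
  mul_mem' := by
    rintro a b ⟨c, h1, h2, h3⟩ ⟨d, h4, h5, h6⟩
    exact ⟨c * d, mul_mem h1 h4, ev_mul_ne h2 h5, mul_mul_mul_comm a c b d ▸ mul_mem h3 h6⟩
  neg_mem' := by
    rintro a ⟨c, h1, h2, h3⟩
    exact ⟨c, h1, h2, neg_mul a c ▸ neg_mem h3⟩

theorem Be_le_Ae {b : F⟦X⟧} (hb : b ∈ Be T x i e he) : b ∈ Ae T x i e he :=
  ⟨1, one_mem _, by simp [ev, LP.v_one], by simpa using hb⟩

theorem div_mem_Ae {b c : F⟦X⟧} (hb : b ∈ Be T x i e he) (hc : c ∈ Be T x i e he)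
    (h : ev (constantCoeff c) x ≠ 0) : b * c⁻¹ ∈ Ae T x i e he :=
  ⟨c, hc, h, by rwa [mul_assoc, PowerSeries.inv_mul_cancel _ (LP.ne_zero_of_ne h), mul_one]⟩

theorem Ae_le (hx : x ∈ pat P i) : Ae T x i e he ≤ serR (oR x) := by
  rintro a ⟨c, h1, h2, h3⟩
  obtain ⟨g, hg, h4⟩ := exists_inv_serR (Be_le hx h1) ((lp x).inv_mem h2)
    (mul_inv_cancel₀ (LP.ne_zero_of_ne h2))
  have := mul_mem (Be_le hx h3) hg
  rwa [mul_assoc, h4, mul_one] at this

theorem Ae_noeth : IsNoetherianRing (Ae T x i e he) := by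
  let S : Submonoid (Be T x i e he) :=
    { carrier := {c | ev (constantCoeff (c : F⟦X⟧)) x ≠ 0}
      one_mem' := by simp [ev, LP.v_one]
      mul_mem' := fun ha hb => ev_mul_ne ha hb }
  let : Algebra (Be T x i e he) (Ae T x i e he) := (Subring.inclusion (S := (Be T x i e he).toSubring)
    fun _ => Be_le_Ae).toAlgebra
  have : IsLocalization S (Ae T x i e he) :=
    { map_units := fun c => IsUnit.of_mul_eq_one ⟨_, div_mem_Ae (one_mem _) c.1.2 c.2⟩
        (Subtype.ext (by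
          change (c : F⟦X⟧) * (1 * (c : F⟦X⟧)⁻¹) = 1
          rw [one_mul, PowerSeries.mul_inv_cancel _ (LP.ne_zero_of_ne c.2)]))
      surj := fun ⟨a, c, h1, h2, h3⟩ => ⟨(⟨_, h3⟩, ⟨⟨c, h1⟩, h2⟩), rfl⟩
      exists_of_eq := fun {a b} h => ⟨1, by
        rw [show a = b from Subtype.ext (congrArg (fun z : Ae T x i e he => (z : F⟦X⟧)) h)]⟩ }
  exact IsLocalization.isNoetherianRing S _ (isNoetherianRing_of_fg
    (Subalgebra.fg_def.2 ⟨_, Set.finite_range _, rfl⟩))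

theorem Ae_ufd (hG : GenSecStmt) (hU : UfdStmt) (b : B2 F) (hx : x ∈ pat P i) :
    UniqueFactorizationMonoid (Ae T x i e he) := by
  refine hU F P b x _ (Ae_le hx) Ae_noeth (Be_le_Ae ?_) (fun c => Be_le_Ae ?_) ?_ ?_ ?_
  · simpa [algebraMap_apply''] using (Be T x i e he).algebraMap_mem X
  · simpa [algebraMap_apply''] using (Be T x i e he).algebraMap_mem (C c)
  · rintro f ⟨c, h1, h2, h3⟩
    exact ⟨c, h1, h2, Be_sat hG (mul_assoc X f c ▸ h3)⟩
  · intro a ha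
    obtain ⟨u, hu, c, hc, h1, h2⟩ := (mem_lp_iff hx).1 ha
    obtain ⟨u, h3, rfl⟩ := Be_sur (T := T) (x := x) (he := he) hu
    obtain ⟨c, h4, rfl⟩ := Be_sur (T := T) (x := x) (he := he) hc
    exact ⟨_, div_mem_Ae h3 h4 h1, by
      rw [map_mul, constantCoeff_inv, ← h2, mul_inv_cancel_right₀ (LP.ne_zero_of_ne h1)]⟩
  · rintro f ⟨c, h1, h2, h3⟩ h
    refine ⟨_, div_mem_Ae h1 h3 (ev_mul_ne h h2), ?_⟩
    rw [← mul_assoc, PowerSeries.mul_inv_cancel _ (LP.ne_zero_of_ne (ev_mul_ne h h2))]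

theorem Be_Ao {b : F⟦X⟧} (hb : b ∈ Be T x i e he) :
    ∃ z ∈ (red W T).Ao (yy W T) i, (z : Ω) = emb W T x e he b :=
  adj_Ao (fun c => ⟨_, W.th_mem e he c, (emb_map T x e he c).trans (W.ie_map _ _ c)⟩)
    (fun _ => emb_θ T x e he _) hb

theorem Ae_Lo (hx : x ∈ pat P i) {a : F⟦X⟧} (ha : a ∈ Ae T x i e he) :
    ∃ z ∈ (pre W T hG).Lo x, (z : Ω) = emb W T x e he a := by
  obtain ⟨c, h1, h2, h3⟩ := ha
  obtain ⟨z, h4, h5⟩ := Be_Ao (W := W) h1
  obtain ⟨z', h6, h7⟩ := Be_Ao (W := W) h3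
  have h8 : (red W T).r z = constantCoeff c := (congrArg W.R.r h5).trans (r_emb T x e he c)
  have h9 : (z : Ω) ≠ 0 := Red.ne_zero (R := W.R) fun h => LP.ne_zero_of_ne h2 (h8.symm.trans h)
  refine ⟨z' / z, Pre.div_mem_Lo (Pre.Ao_le_Lo hx h6) (Pre.Ao_le_Lo hx h4) (h8 ▸ h2), ?_⟩
  rw [IntermediateField.coe_div, h7, map_mul, ← h5, mul_div_cancel_right₀ _ h9]

end Lvl

variable {x : Pts P} {i : Fin (P.N + 1)}

theorem ev_Ao {z : fld W T} (hz : z ∈ (red W T).Ao (yy W T) i) :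
    Ev fun e he => ∃ b ∈ Be T x i e he, emb W T x e he b = z := by
  induction hz using Subring.closure_induction with
  | mem z hz =>
    rcases hz with ⟨c, hc, rfl⟩ | ⟨j, rfl⟩
    · exact (W.ev_levc (Red.mem_comap_o.1 hc)).mono fun e he ⟨g, hg⟩ =>
        ⟨_, algebraMap_mem _ g, (emb_map T x e he g).trans hg⟩
    · exact Ev.of fun e he => ⟨_, Algebra.subset_adjoin ⟨j, rfl⟩,
        (emb_θ T x e he _).trans (coe_div W T i j).symm⟩
  | zero => exact Ev.of fun e he => ⟨0, zero_mem _, map_zero _⟩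
  | one => exact Ev.of fun e he => ⟨1, one_mem _, map_one _⟩
  | add f g _ _ hf hg => exact (hf.and hg).mono fun e he ⟨⟨a, h1, h2⟩, b, h3, h4⟩ =>
      ⟨a + b, add_mem h1 h3, by rw [map_add, h2, h4]; rfl⟩
  | neg f _ hf => exact hf.mono fun e he ⟨a, h1, h2⟩ =>
      ⟨-a, neg_mem h1, by rw [map_neg, h2]; rfl⟩
  | mul f g _ _ hf hg => exact (hf.and hg).mono fun e he ⟨⟨a, h1, h2⟩, b, h3, h4⟩ =>
      ⟨a * b, mul_mem h1 h3, by rw [map_mul, h2, h4]; rfl⟩

theorem ev_Lo (hx : x ∈ pat P i) {z : fld W T} (hz : z ∈ (pre W T hG).Lo x) :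
    Ev fun e he => ∃ a ∈ Ae T x i e he, emb W T x e he a = z := by
  obtain ⟨u, hu, c, hc, h0, h1⟩ := (Pre.mem_Lo_iff hx).1 hz
  refine ((ev_Ao (x := x) hu).and (ev_Ao (x := x) hc)).mono fun e he ⟨⟨a, h2, h3⟩, b, h4, h5⟩ => ?_
  have h6 : (red W T).r c = constantCoeff b := (congrArg W.R.r h5.symm).trans (r_emb T x e he b)
  rw [h6] at h0
  refine ⟨_, div_mem_Ae h2 h4 h0, ?_⟩
  have h7 := congrArg (emb W T x e he) (PowerSeries.mul_inv_cancel _ (LP.ne_zero_of_ne h0))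
  rw [map_mul, map_one, h5] at h7
  rw [map_mul, h3, ← h1, IntermediateField.coe_mul, mul_assoc, h7, mul_one]

/-- **invertible ideals are principal** -/
theorem pic (hU : UfdStmt) (b : B2 F) : (pre W T hG).Pic := pic_of _ fun x ι _ z hz => by
  obtain ⟨i, hi⟩ := exists_pat x
  obtain ⟨e, he, h⟩ := (Ev.all fun j => ev_Lo hi (hz j)).exists
  have h1 : ∀ a : Ae T x i e he, emb W T x e he a ∈ fld W T := fun a => by
    obtain ⟨u, -, hu⟩ := Ae_Lo (W := W) (hG := hG) hi a.2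
    exact hu ▸ u.2
  refine ⟨Ae T x i e he, inferInstance, inferInstance, Ae_ufd hG hU b hi,
    ((emb W T x e he).comp (Ae T x i e he).subtype).codRestrict (fld W T) h1,
    fun a a' h2 => Subtype.ext (emb_inj T x e he (congrArg Subtype.val h2)), fun a => ?_,
    fun j => ?_⟩
  · obtain ⟨u, h2, hu⟩ := Ae_Lo (W := W) (hG := hG) hi a.2
    obtain rfl : u = ⟨_, h1 a⟩ := Subtype.ext hu
    exact h2
  · obtain ⟨a, h2, h3⟩ := h j
    exact ⟨⟨a, h2⟩, Subtype.ext h3⟩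

theorem lev_mul {k L : Type} [CommRing k] [CommRing L] [Algebra k L] {e a : ℕ} (he : e ≠ 0)
    (ha : a ≠ 0) (m : Mv k L) :
    IsLev a ha (lev e he m) (lev (e * a) (mul_ne_zero he ha) m) := by
  intro f
  rw [isLev_lev a ha (lev e he m) f |>.symm]
  refine hom_ext (Mv.ψX _) (Mv.ψX _) (fun c => ?_) _
  rw [lev_C, lev_C, lev_C, ← expand_mul]
  simp only [mul_comm]

/-- **rigidity** -/
theorem rig [Algebra.EssFiniteType ℂ F] (hT : T.Rigid) : (pre W T hG).Rig := by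
  intro n σ h1 h2 h3
  obtain ⟨e, he, h4⟩ := (Ev.all fun j => W.ev_lev (h1 j)).exists
  choose s hs using h4
  have h5 : ∀ j, (red W T).r (σ j) = constantCoeff (s j) := fun j =>
    (congrArg W.R.r (hs j).symm).trans (W.r_ie _ _ _)
  simp only [h5] at h2 ⊢
  refine hT e he _ (fun x => isLev_lev e he _) n s h2 fun x => (h3 x).imp fun j hj l => ?_
  obtain ⟨i, hi⟩ := exists_pat x
  obtain ⟨k, hk, a, h6, h7⟩ := (ev_Lo hi (hj l)).exists_mul he
  have h8 : a = expand k hk ((lev e he (T.m x)).inv.ψ (s l * (s j)⁻¹)) := emb_inj T x _ _ (by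
    rw [h7, emb, RingHom.comp_apply, lev_mul he hk, Mv.ψ_inv, W.exp e k he, map_mul, W.ie_inv (h2 j),
      hs, hs, ← div_eq_mul_inv]
    rfl)
  refine ⟨(lev e he (T.m x)).inv.ψ (s l * (s j)⁻¹), fun d => ?_, ?_⟩
  · have := Ae_le hi h6 (k * d)
    rwa [h8, coeff_expand_mul] at this
  · rw [Mv.ψ_inv, mul_left_comm, PowerSeries.mul_inv_cancel _ (h2 j), mul_one]

end Crest.Agent.X262.Fam99
end
end

-- ▼ part X262/Fano21/Lin
section

/-!
# Row 262, FANO-ALG (helper21), part 10: the line of `Top.Lines`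

* `genPt` : the line is the generic point of the variety of lines;
* `nrmSec` : symmetric sections of multiples of the Pluecker class.
-/

set_option autoImplicit false

open MvPolynomial

namespace Crest.Agent.X262.Fano21

open Crest.AlgGeometry Crest.Agent.X277 Crest.Agent.X277.BD
open Crest.Agent.X262.Top (Lines SmCub)
open Rig38 (GenPt pv qv)

variable {G : MvPolynomial (Fin 6) ℂ} {F L : Type} [Field F] [Algebra ℂ F] [Field L] [Algebra ℂ L]

theorem ker_of_trdeg {σ : Type} [Finite σ] {I : Ideal (MvPolynomial σ ℂ)}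
    [IsDomain (MvPolynomial σ ℂ ⧸ I)] (hI : ringKrullDim (MvPolynomial σ ℂ ⧸ I) ≤ 4) {a : σ → L}
    (on : ∀ q ∈ I, aeval a q = 0)
    (h : Algebra.trdeg ℂ (IntermediateField.adjoin ℂ (Set.range a)) = 4) (r : MvPolynomial σ ℂ) :
    aeval a r = 0 ↔ r ∈ I := by
  have e := Brg.Lines.adjoin_lift I a on
  generalize IntermediateField.adjoin ℂ (Set.range a) = K at h e
  subst e
  have hi := Brg.Lines.inj_of_trdeg (Ideal.Quotient.liftₐ I (aeval a) on) (d := 4) hI h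
  exact ⟨fun hr => Ideal.Quotient.eq_zero_iff_mem.1 (hi (hr.trans (map_zero _).symm)), on r⟩

theorem genPt_of_trdeg (hG : SmCub G) {a : Fin 8 → L} (on : ∀ q ∈ fanoChartIdeal G, aeval a q = 0)
    (h : Algebra.trdeg ℂ (IntermediateField.adjoin ℂ (Set.range a)) = 4) : GenPt G a :=
  have := chart_isDomain hG.1 hG.2
  ker_of_trdeg (chart_dim hG.1 hG.2) on h

theorem trdeg_lines (Λ : Lines G F L) :
    Algebra.trdeg ℂ (IntermediateField.adjoin ℂ (Set.range Λ.a)) = 4 := by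
  have := Brg.Lines.isAlgebraic_of_fix Λ.inv fun x => (Λ.fix x).1
  exact (Brg.Lines.trdeg_of_isAlgebraic _).trans Λ.dim

/-- **the line is generic** -/
theorem genPt (Λ : Lines G F L) (hG : SmCub G) : GenPt G Λ.a :=
  genPt_of_trdeg hG Λ.on (trdeg_lines Λ)

/-- **normality** -/
theorem nrmSec (Λ : Lines G F L) (hG : SmCub G) (ha : GenPt G Λ.a) (k : ℕ) (s : L)
    (h1 : Λ.τ s = s) (h2 : s ∈ (k • mxf ℂ Λ.plk).Sec) :
    s ∈ Rig38.Sec (Rig38.plk (pv Λ.a) (qv Λ.a)) k := by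
  refine SmC.sec_of_val ⟨hG.1, hG.2⟩ ha ((Λ.fix s).1 h1) fun V hV => ?_
  obtain ⟨m, hm⟩ := exists_val_mxf (k := ℂ) (s := Λ.plk) ⟨(0, 1), by
    change Rig38.plk (pv Λ.a) (qv Λ.a) 0 1 ≠ 0
    rw [Rig38.plk01]
    exact one_ne_zero⟩ ⟨V, hV⟩
  have h3 := h2 ⟨V, hV⟩
  rw [val_nsmul, ← hm] at h3
  exact ⟨m.1, m.2, h3⟩

end Crest.Agent.X262.Fano21
end

-- ▼ part X262/Rig38/Fft
section

/-!
# Row 262, G4, RIG (helper38): the variety of lines is projectively normal

* `exists_inv` : projection to the invariants; `capelli`, `fft` : the first fundamental theorem;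
* `sec_form`   : sections of `O(k)` are forms of degree `k` in the Pluecker coordinates.
-/

set_option autoImplicit false
set_option linter.unusedSectionVars false

open MvPolynomial

noncomputable section

namespace Crest.Agent.X262.Rig38

theorem rho_f {A : Type} [CommRing A] [Algebra ℂ A] (a : Fin 8 → A) (p : PP) :
    rho a (fD p) = dd (Fin 2) A 1 0 (rho a p) := by
  induction p using MvPolynomial.induction_on with
  | C r =>
    rw [derivation_C, map_zero, algHom_C]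
    exact (derivation_C _ _).symm
  | add p q hp hq => simp only [map_add, hp, hq]
  | mul_X p m hp =>
    obtain ⟨k, j⟩ := m
    simp only [Derivation.leibniz, smul_eq_mul, map_add, map_mul, hp, dd_X, rho_X, derivation_C]
    fin_cases k <;> simp [rho_X]
    ring

theorem BH.e_iter {p : PP} {a b : ℤ} (h : BH p a b) (n : ℕ) : BH (eD^[n] p) (a + n) (b - n) := by
  induction n with
  | zero => simpa using h
  | succ n ih =>
    rw [Function.iterate_succ_apply']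
    exact ih.e.cast (by push_cast; ring) (by push_cast; ring)

theorem eD_int (z : ℤ) (p : PP) : eD ((z : PP) * p) = (z : PP) * eD p := by
  rw [← zsmul_eq_mul, ← zsmul_eq_mul, map_zsmul]

theorem BH.e_iter_f {p : PP} {a b : ℤ} (h : BH p a b) (n : ℕ) : eD^[n + 1] (fD p) =
    fD (eD^[n + 1] p) + (((n + 1) * (a - b + n) : ℤ) : PP) * eD^[n] p := by
  induction n with
  | zero => simpa using h.ef
  | succ n ih =>
    rw [Function.iterate_succ_apply', ih, map_add, (h.e_iter (n + 1)).ef, eD_int,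
      ← Function.iterate_succ_apply' eD, ← Function.iterate_succ_apply' eD]
    push_cast
    ring

theorem eD_C (z : ℂ) (p : PP) : eD (C z * p) = C z * eD p := by
  simp [Derivation.leibniz]

theorem e_iter_sub (n : ℕ) (z : ℂ) (p q : PP) :
    eD^[n] (p - C z * q) = eD^[n] p - C z * eD^[n] q := by
  induction n with
  | zero => rfl
  | succ n ih =>
    simp only [Function.iterate_succ_apply', ih, map_sub, eD_C]

theorem exists_inv {A : Type} [CommRing A] [Algebra ℂ A] (a : Fin 8 → A) {k : ℤ} (n : ℕ) :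
    ∀ v : PP, BH v k k → eD^[n + 1] v = 0 → rho a (eD v) = 0 →
      ∃ v', BH v' k k ∧ eD v' = 0 ∧ rho a v' = rho a v := by
  induction n with
  | zero => exact fun v h e _ => ⟨v, h, e, rfl⟩
  | succ n ih =>
    intro v h e e'
    have h1 : rho a (fD (eD v)) = 0 := by rw [rho_f, e', map_zero]
    obtain ⟨v', h2, h3, h4⟩ := ih (v - C (1 / ((n + 1) * (n + 2)) : ℂ) * fD (eD v))
      (h.sub ((h.e.f.C_mul _).cast (by ring) (by ring))) (by
        rw [e_iter_sub, h.e.e_iter_f, ← Function.iterate_succ_apply eD,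
          ← Function.iterate_succ_apply eD, e, map_zero, zero_add, ← mul_assoc]
        have : (C (1 / ((n + 1) * (n + 2)) : ℂ) : PP) *
            (((n + 1) * (k + 1 - (k - 1) + n) : ℤ) : PP) = 1 := by
          rw [← map_intCast (C : ℂ →+* PP), ← map_mul, ← map_one C]
          congr 1
          have h1 : (n + 1 : ℂ) ≠ 0 := by exact_mod_cast Nat.succ_ne_zero n
          have h2 : (n + 2 : ℂ) ≠ 0 := by exact_mod_cast Nat.succ_ne_zero (n + 1)
          push_cast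
          field_simp
          ring
        rw [this, one_mul, sub_self]) (by
        rw [map_sub, eD_C, map_sub, map_mul, e', rho_e, h1, map_zero,
          mul_zero, sub_zero])
    exact ⟨v', h2, h3, by rw [h4, map_sub, map_mul, h1, mul_zero, sub_zero]⟩

/-- the Cayley operators -/
def cay (i j : Fin 6) (r : PP) : PP :=
  pderiv (0, i) (pderiv (1, j) r) - pderiv (0, j) (pderiv (1, i) r)

theorem dy_e (j : Fin 6) (r : PP) : pderiv (1, j) (eD r) = eD (pderiv (1, j) r) := by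
  simp only [dd_apply, map_sum, Derivation.leibniz, smul_eq_mul]
  refine Finset.sum_congr rfl fun i _ => ?_
  rw [pderiv_comm]
  simp [pderiv_X]

theorem dx_e (i : Fin 6) (r : PP) :
    pderiv (0, i) (eD r) = eD (pderiv (0, i) r) + pderiv (1, i) r := by
  simp only [dd_apply, map_sum, Derivation.leibniz, smul_eq_mul, Finset.sum_add_distrib]
  refine congrArg₂ (· + ·) (Finset.sum_congr rfl fun i _ => by rw [pderiv_comm]) ?_
  simp [pderiv_X, Pi.single_apply]

theorem e_cay (i j : Fin 6) (r : PP) : eD (cay i j r) = cay i j (eD r) := by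
  simp only [cay, map_sub, dy_e, dx_e]
  rw [pderiv_comm ((1, i) : Fin 2 × Fin 6) (1, j)]
  ring

theorem capelli {r : PP} {a b : ℤ} (h : BH r a b) (he : eD r = 0) :
    ∑ i, ∑ j, plk xx yy i j * cay i j r = ((2 * (a + 1) * b : ℤ) : PP) * r := by
  have e1 : ∑ i, ∑ j, xx i * yy j * pderiv (0, i) (pderiv (1, j) r) = (a : PP) * (b * r) := by
    rw [Finset.sum_comm, ← h.ey, Finset.mul_sum]
    refine Finset.sum_congr rfl fun j _ => ?_
    rw [mul_left_comm, ← (h.dy j).ex, Finset.mul_sum]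
    exact Finset.sum_congr rfl fun i _ => by rw [xx, yy]; ring
  have e2 : ∑ i, ∑ j, xx i * yy j * pderiv (0, j) (pderiv (1, i) r) = -((b : PP) * r) := by
    rw [Finset.sum_comm, ← h.ey, ← Finset.sum_neg_distrib]
    refine Finset.sum_congr rfl fun j _ => ?_
    have := dx_e j r
    rw [he, map_zero, dd_apply] at this
    rw [← neg_eq_of_add_eq_zero_right this.symm, mul_neg, neg_neg, Finset.mul_sum]
    exact Finset.sum_congr rfl fun i _ => by rw [xx, yy, pderiv_comm]; ring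
  have e3 := e1
  have e4 := e2
  rw [Finset.sum_comm] at e3 e4
  have e : ∑ i, ∑ j, plk xx yy i j * cay i j r =
      ∑ i, ∑ j, xx i * yy j * pderiv (0, i) (pderiv (1, j) r) -
      ∑ i, ∑ j, xx i * yy j * pderiv (0, j) (pderiv (1, i) r) -
      ∑ i, ∑ j, xx j * yy i * pderiv (0, i) (pderiv (1, j) r) +
      ∑ i, ∑ j, xx j * yy i * pderiv (0, j) (pderiv (1, i) r) := by
    simp only [← Finset.sum_sub_distrib, ← Finset.sum_add_distrib, plk, cay]
    exact Finset.sum_congr rfl fun i _ => Finset.sum_congr rfl fun j _ => by ring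
  rw [e, e1, e2, e3, e4]
  push_cast
  ring

theorem fft (k : ℕ) : ∀ r : PP, BH r k k → eD r = 0 → ∃ P : MvPolynomial (Fin 6 × Fin 6) ℂ,
    P.IsHomogeneous k ∧ r = aeval (fun m : Fin 6 × Fin 6 => plk xx yy m.1 m.2) P := by
  induction k with
  | zero =>
    intro r h _
    exact ⟨C (constantCoeff r), isHomogeneous_C _ _, by rw [aeval_C]; exact h.eq_C⟩
  | succ k ih =>
    intro r h he
    have hb : ∀ i j, BH (pderiv (0, i) (pderiv (1, j) r)) k k := fun i j =>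
      ((h.dy j).dx i).cast (by push_cast; ring) (by push_cast; ring)
    choose P hP e using fun i j => ih (cay i j r) ((hb i j).sub (hb j i))
      (by rw [e_cay, he]; simp [cay])
    refine ⟨C (1 / (2 * (k + 2) * (k + 1)) : ℂ) * ∑ i, ∑ j, X (i, j) * P i j, ?_, ?_⟩
    · refine IsWeightedHomogeneous.C_mul (IsHomogeneous.sum _ _ _ fun i _ =>
        IsHomogeneous.sum _ _ _ fun j _ => ?_) _
      rw [add_comm]
      exact (isHomogeneous_X _ _).mul (hP i j)
    · simp only [map_mul, map_sum, aeval_X, aeval_C, ← e, capelli h he, algebraMap_eq]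
      have : (C (1 / (2 * (k + 2) * (k + 1)) : ℂ) : PP) *
          ((2 * (((k + 1 : ℕ) : ℤ) + 1) * ((k + 1 : ℕ) : ℤ) : ℤ) : PP) = 1 := by
        rw [← map_intCast (C : ℂ →+* PP), ← map_mul, ← map_one C]
        congr 1
        have h1 : (k + 1 : ℂ) ≠ 0 := by exact_mod_cast Nat.succ_ne_zero k
        have h2 : (k + 2 : ℂ) ≠ 0 := by exact_mod_cast Nat.succ_ne_zero (k + 1)
        push_cast
        field_simp
        ring
      rw [← mul_assoc, this, one_mul]

variable {G : MvPolynomial (Fin 6) ℂ} {K : Type} [Field K] [Algebra ℂ K] {a : Fin 8 → K}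

/-- **projective normality** -/
theorem sec_form (hG : G.IsHomogeneous 3) (R : RSq (ten G)) (g : GenPt G a) {k : ℕ} {s : K}
    (hs : s ∈ Sec (plk (pv a) (qv a)) k) : ∃ P : MvPolynomial (Fin 6 × Fin 6) ℂ,
      P.IsHomogeneous k ∧ s = aeval (fun m : Fin 6 × Fin 6 => plk (pv a) (qv a) m.1 m.2) P := by
  obtain ⟨r, hr, e⟩ := lift_sec hG R g hs
  obtain ⟨v, h1, h2, h3⟩ := exists_inv a k r hr
    ((hr.e_iter (k + 1)).eq_zero (Or.inr (by push_cast; omega))) (by
      rw [rho_e, e]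
      simp [Derivation.leibniz, Derivation.leibniz_pow, e_dt])
  obtain ⟨P, hP, rfl⟩ := fft k v h1 h2
  refine ⟨P, hP, ?_⟩
  have e' : (C (aeval (fun m : Fin 6 × Fin 6 => plk (pv a) (qv a) m.1 m.2) P) : BP (Fin 2) K) =
      aeval (fun m : Fin 6 × Fin 6 => C (plk (pv a) (qv a) m.1 m.2)) P :=
    comp_aeval_apply _ (IsScalarTower.toAlgHom ℂ K (BP (Fin 2) K)) P
  rw [comp_aeval_apply, e] at h3
  simp only [rho_plk] at h3
  rw [aeval_hom_mul hP, ← e'] at h3
  exact (C_injective _ _ (mul_left_cancel₀ (pow_ne_zero _ dt_ne) h3)).symm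

end Crest.Agent.X262.Rig38
end
end

-- ▼ part X262/Deg38/Abs
section

/-!
# Row 262, G4 / DEG (helper38), part 1: the data and the graded pieces

* `red_sec` : reductions of sections of `O(k)`;
* `Dat`     : the square of the generic fibre with the deformed line;
* `Dat.A`, `Dat.VV`, `Dat.NN`, `Dat.T` : graded pieces; `Dat.exists_frac`, `Dat.red_VV`.
-/

set_option autoImplicit false

open MvPolynomial

noncomputable section

namespace Crest.Agent.X262.Deg38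

open Crest.Agent.X277 Crest.Agent.X277.Lef Crest.Agent.X277.AN.G1 Crest.Agent.X277.BD
open Crest.Agent.X277.BD.Br (On oP At)
open Crest.Agent.X262.Top (Lines SmCub)
open Crest.Agent.X262.Alg44 (Red Pre)
open Crest.Agent.X262.Rig38 (plk pv qv)
open Crest.Agent.R274.Prod1_134 (IsPF)

theorem aeval_mem {σ A : Type} [CommRing A] [Algebra ℂ A] (N : ℕ → Submodule ℂ A)
    (h1 : 1 ∈ N 0) (hm : ∀ k l, ∀ x ∈ N k, ∀ y ∈ N l, x * y ∈ N (k + l)) {y : σ → A}
    (hy : ∀ i, y i ∈ N 1) {p : MvPolynomial σ ℂ} {k : ℕ} (hp : p.IsHomogeneous k) :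
    aeval y p ∈ N k := by
  have hpow : ∀ i n, y i ^ n ∈ N n := fun i n => by
    induction n with
    | zero => simpa using h1
    | succ n ih => rw [pow_succ]; exact hm _ _ _ ih _ (hy i)
  refine IsWeightedHomogeneous.induction_on (motive := fun p _ => aeval y p ∈ N k) ?_ ?_ ?_ hp
  · simp
  · intro p q _ _ hp hq
    rw [map_add]
    exact add_mem hp hq
  · intro m c hm'
    rw [aeval_monomial, ← Algebra.smul_def, ← hm', Finsupp.weight_apply]
    refine Submodule.smul_mem _ _ ?_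
    simp only [Finsupp.prod, Finsupp.sum, Pi.one_apply, smul_eq_mul, mul_one]
    induction m.support using Finset.cons_induction with
    | empty => simpa using h1
    | cons i s hi ih => rw [Finset.prod_cons, Finset.sum_cons]; exact hm _ _ _ (hpow _ _) _ ih

variable {F E : Type} [Field F] [Algebra ℂ F] [Field E] [Algebra ℂ E] {R : Red F E}
  {P : PModel ℂ F}

theorem div_mem_A {s : F} {k : ℕ} (hs : s ∈ (k • oP P).Sec) (i : Fin (P.N + 1)) :
    s / P.y i ^ k ∈ P.A i :=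
  mem_of_local (Subalgebra.toSubmodule (P.A i)) (fun _ hc _ hg => (P.A i).mul_mem hc hg)
    fun _ hx => by
    obtain ⟨a, ha, c, hc, h0, h1⟩ := (mem_lp_iff hx).1 (((Br.at_y hx).nsmul k).div_mem hs)
    exact ⟨c, hc, h0, by rw [mul_comm, h1]; exact ha⟩

theorem red_sec {G : Pre R P} {h : G.Sm} {s : E} {k : ℕ} (hs : s ∈ (k • oP (G.gen h)).Sec)
    (hO : s ∈ R.O) : R.r s ∈ (k • oP P).Sec := fun V => by
  obtain ⟨i, hi, hV⟩ := Br.exists_chart (P := P) V
  have h0 : R.r (G.y i ^ k) = P.y i ^ k := by rw [Red.r_pow (G.y_mem i), G.y_r]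
  have h1 : R.r (G.y i ^ k) ≠ 0 := h0 ▸ pow_ne_zero _ (P.y_ne i)
  have h2 := (Pre.Ao_spec (G.sat i _ (div_mem_A hs i)
    (Red.div_mem hO (pow_mem (G.y_mem i) k) h1))).2
  rw [Red.r_div hO (pow_mem (G.y_mem i) k) h1, h0] at h2
  rw [val_nsmul, ← hi, ← map_pow]
  exact (RZ.le_iff (pow_ne_zero _ (P.y_ne i))).2 (hV _ h2)

variable {G₀ : MvPolynomial (Fin 6) ℂ} {L : Type} [Field L] [Algebra ℂ L]

/-- the square of the generic fibre with the deformed line -/
structure Dat (Λ : Lines G₀ F L) (G : Pre R P) (h : G.Sm) (L' : Type) [Field L'] [Algebra ℂ L']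
    where
  pf : IsPF Λ.ι (Λ.τ.comp Λ.ι)
  /-- the reduction -/
  R' : Red L L'
  /-- the first projection -/
  ι : E →ₐ[ℂ] L'
  /-- the swap -/
  τ : L' →ₐ[ℂ] L'
  inv : ∀ x, τ (τ x) = x
  gen : IntermediateField.adjoin ℂ (Set.range ι ∪ Set.range fun x => τ (ι x)) = ⊤
  dim : Algebra.trdeg ℂ L' = 4
  ιO : ∀ f ∈ R.O, ι f ∈ R'.O ∧ R'.r (ι f) = Λ.ι (R.r f)
  τO : ∀ x ∈ R'.O, τ x ∈ R'.O ∧ R'.r (τ x) = Λ.τ (R'.r x)
  /-- `O(1)` is the `r`-th power of the polarisation -/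
  r : ℕ
  r_pos : 0 < r
  /-- the number of sections -/
  n : ℕ
  /-- the sections -/
  ρ : Fin n → E
  /-- the twist -/
  β : E
  βO : β ∈ R.O
  β0 : R.r β ≠ 0
  fs : ∀ k, ρ k ^ r * β ∈ (oP (G.gen h)).Sec
  fsβ : β ∈ (oP (G.gen h)).Sec
  /-- the line -/
  a : Fin 8 → L'
  aO : ∀ i, a i ∈ R'.O
  a0 : ∀ i, R'.r (a i) = Λ.a i
  aτ : ∀ i, τ (a i) = a i
  /-- the multiplier -/
  w : L'
  wO : w ∈ R'.O
  w0 : R'.r w ≠ 0
  wτ : τ (w ^ 2) = w ^ 2
  /-- the coefficients -/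
  e : Fin 6 → Fin 6 → Fin n → Fin n → ℂ
  pl : ∀ i j, w * plk (pv a) (qv a) i j = ∑ k, ∑ l, e i j k l • (ι (ρ k) * τ (ι (ρ l)))
  /-- the order along the diagonal of the special fibre -/
  ν : Valuation L (WithZero (Multiplicative ℤ))
  ν1 : ∀ f, f ≠ 0 → ν (Λ.ι f) = 1
  ν2 : ∀ f, f ≠ 0 → ν (Λ.τ (Λ.ι f)) = 1
  /-- the order along the diagonal -/
  Od : ℕ → Submodule ℂ L'
  Od_mul : ∀ k l, ∀ x ∈ Od k, ∀ y ∈ Od l, x * y ∈ Od (k + l)
  Od_anti : ∀ k l, k ≤ l → Od l ≤ Od k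
  Od_ι : ∀ f, ι f ∈ Od 0
  Od_τ : ∀ f, τ (ι f) ∈ Od 0
  Od_r : ∀ k, ∀ x ∈ Od k, x ∈ R'.O → ν (R'.r x) ≤ WithZero.exp (-(k : ℤ))
  /-- the multiplicity -/
  m : ℕ
  ord : ∀ i j, w * plk (pv a) (qv a) i j ∈ Od m
  /-- the twist -/
  lam : L
  lam0 : lam ≠ 0
  sec : ∀ k : ℕ, ∀ σ ∈ (k • (pb Λ.ι (oP P) + pb (Λ.τ.comp Λ.ι) (oP P))).Sec,
    ν σ ≤ WithZero.exp (-((r * k * m : ℕ) : ℤ)) → lam ^ k * σ ∈ ((r * k) • mxf ℂ Λ.plk).Sec

namespace Dat

variable {Λ : Lines G₀ F L} {G : Pre R P} {h : G.Sm} {L' : Type} [Field L'] [Algebra ℂ L']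
  (D : Dat Λ G h L')

theorem β_ne : D.β ≠ 0 := Red.ne_zero D.β0

theorem w_ne : D.w ≠ 0 := Red.ne_zero D.w0

/-- sections of the `n`-th power of the polarisation -/
def A (n : ℕ) : Submodule ℂ E where
  carrier := {f | ∀ V : RZ ℂ E, V.v f ^ D.r * V.v D.β ^ n ≤ (oP (G.gen h)).val V ^ n}
  add_mem' {f g} hf hg V := by
    rcases le_max_iff.1 (V.v.map_add f g) with e | e
    · exact (mul_le_mul_left (pow_le_pow_left' e _) _).trans (hf V)
    · exact (mul_le_mul_left (pow_le_pow_left' e _) _).trans (hg V)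
  zero_mem' V := by simp [D.r_pos.ne']
  smul_mem' c f hf V := (mul_le_mul_left (pow_le_pow_left' (V.v_smul_le c f) _) _).trans (hf V)

variable {D}

theorem A_mul {k l : ℕ} {f g : E} (hf : f ∈ D.A k) (hg : g ∈ D.A l) : f * g ∈ D.A (k + l) :=
  fun V => by
  have := mul_le_mul' (hf V) (hg V)
  rw [map_mul, mul_pow, pow_add, pow_add]
  exact (le_of_eq (by ac_rfl)).trans this

theorem one_mem_A : 1 ∈ D.A 0 := fun V => by simp

theorem ρ_mem (k : Fin D.n) : D.ρ k ∈ D.A 1 := fun V => by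
  have := D.fs k V
  rwa [map_mul, map_pow, ← pow_one (V.v D.β), ← pow_one (BD.val _ V)] at this

theorem mem_A_iff {k : ℕ} {f : E} : f ∈ D.A (D.r * k) ↔ f * D.β ^ k ∈ (k • oP (G.gen h)).Sec :=
  forall_congr' fun V => by
    rw [map_mul, map_pow, val_nsmul, mul_comm D.r, pow_mul, pow_mul, ← mul_pow]
    exact pow_le_pow_iff_left₀ zero_le zero_le D.r_pos.ne'

theorem exists_fracA (f : E) : ∃ d, ∃ s ∈ D.A d, ∃ s' ∈ D.A d, s' ≠ 0 ∧ f * s' = s := by
  obtain ⟨a, ha, c, hc, h0, rfl⟩ := G.frac f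
  have key : ∀ a ∈ chart ℂ G.y 0, ∃ N0 : ℕ, ∀ N, N0 ≤ N →
      a * G.y 0 ^ N / D.β ^ N ∈ D.A (D.r * N) := fun a ha => by
    obtain ⟨N0, hN⟩ := Br.exists_tw_mem (P := G.gen h) (a := 0) (f := a) (i := 0)
      fun V hV => by simpa using RZ.le_one_iff.2 (hV a ha)
    refine ⟨N0, fun N hN' => mem_A_iff.2 ?_⟩
    rw [div_mul_cancel₀ _ (pow_ne_zero _ D.β_ne)]
    simpa using hN N hN'
  obtain ⟨N1, h1⟩ := key a ha
  obtain ⟨N2, h2⟩ := key c hc
  refine ⟨_, _, h1 (N1 + N2) (by omega), _, h2 (N1 + N2) (by omega), div_ne_zero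
    (mul_ne_zero h0 (pow_ne_zero _ (G.y_ne 0))) (pow_ne_zero _ D.β_ne), ?_⟩
  field_simp

variable (D) in
/-- products of sections -/
def VV (n : ℕ) : Submodule ℂ L' :=
  Submodule.span ℂ {x | ∃ f ∈ D.A n, ∃ g ∈ D.A n, x = D.ι f * D.τ (D.ι g)}

theorem mem_VV {n : ℕ} {f g : E} (hf : f ∈ D.A n) (hg : g ∈ D.A n) :
    D.ι f * D.τ (D.ι g) ∈ D.VV n := Submodule.subset_span ⟨f, hf, g, hg, rfl⟩

theorem VV_mul {k l : ℕ} {x y : L'} (hx : x ∈ D.VV k) (hy : y ∈ D.VV l) :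
    x * y ∈ D.VV (k + l) := by
  refine (?_ : D.VV k * D.VV l ≤ D.VV (k + l)) (Submodule.mul_mem_mul hx hy)
  rw [VV, VV, Submodule.span_mul_span, Submodule.span_le]
  rintro _ ⟨_, ⟨f, hf, g, hg, rfl⟩, _, ⟨f', hf', g', hg', rfl⟩, rfl⟩
  have := mem_VV (A_mul hf hf') (A_mul hg hg')
  simp only [map_mul] at this
  change _ * _ ∈ D.VV _
  convert this using 1
  ring

theorem one_mem_VV : 1 ∈ D.VV 0 := by simpa using mem_VV (D := D) one_mem_A one_mem_A

theorem τ_VV {n : ℕ} {x : L'} (hx : x ∈ D.VV n) : D.τ x ∈ D.VV n := by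
  refine (Submodule.span_le (p := (D.VV n).comap D.τ.toLinearMap)).2 ?_ hx
  rintro _ ⟨f, hf, g, hg, rfl⟩
  change D.τ _ ∈ D.VV n
  rw [map_mul, D.inv, mul_comm]
  exact mem_VV hg hf

theorem VV_Od {n : ℕ} {x : L'} (hx : x ∈ D.VV n) : x ∈ D.Od 0 := by
  refine Submodule.span_le.2 ?_ hx
  rintro _ ⟨f, -, g, -, rfl⟩
  exact D.Od_mul 0 0 _ (D.Od_ι f) _ (D.Od_τ g)

theorem pl_VV (i j : Fin 6) : D.w * plk (pv D.a) (qv D.a) i j ∈ D.VV 1 := by
  rw [D.pl]
  exact Submodule.sum_mem _ fun k _ => Submodule.sum_mem _ fun l _ =>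
    Submodule.smul_mem _ _ (mem_VV (ρ_mem k) (ρ_mem l))

theorem w_VV (n : ℕ) : D.w ^ n ∈ D.VV n := by
  induction n with
  | zero => simpa using one_mem_VV
  | succ n ih =>
    rw [pow_succ]
    exact VV_mul ih (by simpa [Rig38.plk01] using pl_VV (D := D) 0 1)

theorem exists_frac (x : L') : ∃ d, ∃ s ∈ D.VV d, ∃ s' ∈ D.VV d, s' ≠ 0 ∧ x * s' = s := by
  have hx : x ∈ IntermediateField.adjoin ℂ (Set.range D.ι ∪ Set.range fun x => D.τ (D.ι x)) :=
    D.gen ▸ IntermediateField.mem_top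
  have hι : ∀ f, ∃ d, ∃ s ∈ D.VV d, ∃ s' ∈ D.VV d, s' ≠ 0 ∧ D.ι f * s' = s := fun f => by
    obtain ⟨d, s, hs, s', hs', h0, e⟩ := exists_fracA (D := D) f
    exact ⟨d, _, mem_VV hs hs', _, mem_VV hs' hs', mul_ne_zero ((map_ne_zero _).2 h0)
      ((map_ne_zero _).2 ((map_ne_zero _).2 h0)), by rw [← mul_assoc, ← map_mul, e]⟩
  induction hx using IntermediateField.adjoin_induction with
  | mem x hx =>
    rcases hx with ⟨f, rfl⟩ | ⟨f, rfl⟩
    · exact hι f
    · obtain ⟨d, s, hs, s', hs', h0, e⟩ := hι f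
      exact ⟨d, _, τ_VV hs, _, τ_VV hs', (map_ne_zero _).2 h0, by rw [← map_mul, e]⟩
  | algebraMap c => exact D.ι.commutes c ▸ hι _
  | add x y _ _ hx hy =>
    obtain ⟨d, s, hs, s', hs', h0, e⟩ := hx
    obtain ⟨d', t, ht, t', ht', h0', e'⟩ := hy
    exact ⟨d + d', _, add_mem (VV_mul hs ht') (VV_mul hs' ht), _, VV_mul hs' ht',
      mul_ne_zero h0 h0', by rw [← e, ← e']; ring⟩
  | inv x _ hx =>
    obtain ⟨d, s, hs, s', hs', h0, e⟩ := hx
    by_cases hx0 : x = 0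
    · exact ⟨d, 0, zero_mem _, s', hs', h0, by simp [hx0]⟩
    · exact ⟨d, s', hs', s, hs, e ▸ mul_ne_zero hx0 h0, by rw [← e]; field_simp⟩
  | mul x y _ _ hx hy =>
    obtain ⟨d, s, hs, s', hs', h0, e⟩ := hx
    obtain ⟨d', t, ht, t', ht', h0', e'⟩ := hy
    exact ⟨d + d', _, VV_mul hs ht, _, VV_mul hs' ht', mul_ne_zero h0 h0',
      by rw [← e, ← e']; ring⟩

theorem exists_fin {n : ℕ} {x : L'} (hx : x ∈ D.VV n) : ∃ U : Submodule ℂ E, U.FG ∧ U ≤ D.A n ∧
    x ∈ Submodule.span ℂ {x | ∃ f ∈ U, ∃ g ∈ U, x = D.ι f * D.τ (D.ι g)} := by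
  have mono : ∀ U U' : Submodule ℂ E, U ≤ U' →
      Submodule.span ℂ {x | ∃ f ∈ U, ∃ g ∈ U, x = D.ι f * D.τ (D.ι g)} ≤
      Submodule.span ℂ {x | ∃ f ∈ U', ∃ g ∈ U', x = D.ι f * D.τ (D.ι g)} := fun U U' hU =>
    Submodule.span_mono fun _ ⟨f, hf, g, hg, e⟩ => ⟨f, hU hf, g, hU hg, e⟩
  induction hx using Submodule.span_induction with
  | mem x hx =>
    obtain ⟨f, hf, g, hg, rfl⟩ := hx
    exact ⟨Submodule.span ℂ {f, g}, Submodule.fg_span (Set.toFinite _),
      Submodule.span_le.2 (Set.pair_subset hf hg), Submodule.subset_span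
        ⟨f, Submodule.subset_span (by simp), g, Submodule.subset_span (by simp), rfl⟩⟩
  | zero => exact ⟨⊥, Submodule.fg_bot, bot_le, zero_mem _⟩
  | add x y _ _ hx hy =>
    obtain ⟨U, h1, h2, h3⟩ := hx
    obtain ⟨U', h1', h2', h3'⟩ := hy
    exact ⟨U ⊔ U', h1.sup h1', sup_le h2 h2',
      add_mem (mono _ _ le_sup_left h3) (mono _ _ le_sup_right h3')⟩
  | smul c x _ hx =>
    obtain ⟨U, h1, h2, h3⟩ := hx
    exact ⟨U, h1, h2, Submodule.smul_mem _ _ h3⟩

theorem prod_O {f g : E} (hf : f ∈ R.O) (hg : g ∈ R.O) : D.ι f * D.τ (D.ι g) ∈ D.R'.O ∧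
    D.R'.r (D.ι f * D.τ (D.ι g)) = Λ.ι (R.r f) * Λ.τ (Λ.ι (R.r g)) := by
  have h1 := D.ιO f hf
  have h2 := D.ιO g hg
  have h3 := D.τO _ h2.1
  exact ⟨mul_mem h1.1 h3.1, by rw [D.R'.r_mul h1.1 h3.1, h1.2, h3.2, h2.2]⟩

theorem red_VV {k : ℕ} {x : L'} (hx : x ∈ D.VV (D.r * k)) (hO : x ∈ D.R'.O) :
    D.R'.r x * (Λ.ι (R.r D.β) * Λ.τ (Λ.ι (R.r D.β))) ^ k ∈
      (k • (pb Λ.ι (oP P) + pb (Λ.τ.comp Λ.ι) (oP P))).Sec := by
  obtain ⟨U, h1, h2, h3⟩ := exists_fin hx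
  obtain ⟨n, b, hb, hU, hi⟩ := R.ge U (Module.Finite.iff_fg.2 h1)
  have h4 : x ∈ Submodule.span ℂ
      (Set.range fun m : Fin n × Fin n => D.ι (b m.1) * D.τ (D.ι (b m.2))) := by
    refine Submodule.span_le.2 ?_ h3
    rintro _ ⟨f, hf, g, hg, rfl⟩
    rw [← hU] at hf hg
    obtain ⟨c, rfl⟩ := (Submodule.mem_span_range_iff_exists_fun ℂ).1 hf
    obtain ⟨c', rfl⟩ := (Submodule.mem_span_range_iff_exists_fun ℂ).1 hg
    simp only [map_sum, map_smul, Finset.sum_mul_sum, smul_mul_smul_comm]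
    exact Submodule.sum_mem _ fun i _ => Submodule.sum_mem _ fun j _ =>
      Submodule.smul_mem _ _ (Submodule.subset_span ⟨(i, j), rfl⟩)
  obtain ⟨c, rfl⟩ := (Submodule.mem_span_range_iff_exists_fun ℂ).1 h4
  have hp := fun m : Fin n × Fin n => prod_O (D := D) (hb m.1) (hb m.2)
  have hi' : LinearIndependent ℂ fun m : Fin n × Fin n =>
      D.R'.r (D.ι (b m.1) * D.τ (D.ι (b m.2))) := by
    rw [show (fun m : Fin n × Fin n => D.R'.r (D.ι (b m.1) * D.τ (D.ι (b m.2)))) =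
      fun m => Λ.ι (R.r (b m.1)) * (Λ.τ.comp Λ.ι) (R.r (b m.2)) from funext fun m => (hp m).2]
    have := D.pf.indep hi hi
    exact this
  have hc := Red.mem_o_of_indep (R := D.R')
    (b := fun m : Fin n × Fin n => D.ι (b m.1) * D.τ (D.ι (b m.2))) (fun m => (hp m).1) hi' hO
  have hs : ∀ i, R.r (b i) * R.r D.β ^ k ∈ (k • oP P).Sec := fun i => by
    rw [← Red.r_pow D.βO, ← R.r_mul (hb i) (pow_mem D.βO k)]
    exact red_sec (mem_A_iff.1 (h2 (hU ▸ Submodule.subset_span ⟨i, rfl⟩)))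
      (mul_mem (hb i) (pow_mem D.βO k))
  rw [Red.r_sum fun m _ => Red.smul_mem (hc m) (hp m).1, Finset.sum_mul]
  refine Submodule.sum_mem _ fun m _ => ?_
  rw [Red.r_smul (hc m) (hp m).1, (hp m).2, smul_mul_assoc]
  refine Submodule.smul_mem _ _ ?_
  have := mul_mem_Sec (pb_mem_Sec (α := Λ.ι) (hs m.1)) (pb_mem_Sec (α := Λ.τ.comp Λ.ι) (hs m.2))
  rw [map_nsmul, map_nsmul, ← nsmul_add] at this
  convert this using 1
  simp only [map_mul, map_pow, AlgHom.comp_apply]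
  ring

end Dat

end Crest.Agent.X262.Deg38
end
end

-- ▼ part X262/Deg38/Fix
section

/-!
# Row 262, G4 / DEG (helper38), part 2: the fixed field of the swap

* `Dat.key` : reductions of invariant sections are forms in the Pluecker coordinates;
* `Dat.nak` : invariant sections are forms; `Dat.exists_h` : a form of high order;
* `Dat.fix` : the fixed field of the swap is generated by the coordinates of the line.
-/

set_option autoImplicit false

open MvPolynomial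

noncomputable section

namespace Crest.Agent.X262.Deg38

open Crest.Agent.X277 Crest.Agent.X277.Lef Crest.Agent.X277.AN.G1 Crest.Agent.X277.BD
open Crest.Agent.X277.BD.Br (On oP At)
open Crest.Agent.X262.Top (Lines SmCub)
open Crest.Agent.X262.Alg44 (Red Pre)
open Crest.Agent.X262.Rig38 (plk pv qv)

variable {F E : Type} [Field F] [Algebra ℂ F] [Field E] [Algebra ℂ E] {R : Red F E}
  {P : PModel ℂ F} {G₀ : MvPolynomial (Fin 6) ℂ} {L : Type} [Field L] [Algebra ℂ L]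

theorem plk_mem {A S : Type} [CommRing A] [SetLike S A] [SubringClass S A] (s : S) {a : Fin 8 → A}
    (ha : ∀ i, a i ∈ s) (i j : Fin 6) : plk (pv a) (qv a) i j ∈ s := by
  have hp : ∀ l, pv a l ∈ s := fun l => by
    fin_cases l <;> simp [pv, ha, one_mem, zero_mem]
  have hq : ∀ l, qv a l ∈ s := fun l => by
    fin_cases l <;> simp [qv, ha, one_mem, zero_mem]
  exact sub_mem (mul_mem (hp i) (hq j)) (mul_mem (hp j) (hq i))

theorem map_plk {A A' : Type} [CommRing A] [CommRing A'] (f : A →+* A') (a : Fin 8 → A)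
    (i j : Fin 6) : f (plk (pv a) (qv a) i j) =
      plk (pv fun i => f (a i)) (qv fun i => f (a i)) i j := by
  simp only [plk, map_sub, map_mul, Rig38.pv_map, Rig38.qv_map]

theorem exists_plk_eq {A : Type} [CommRing A] (a : Fin 8 → A) (i : Fin 8) :
    ∃ k l, a i = plk (pv a) (qv a) k l := by
  fin_cases i
  exacts [⟨2, 1, by simp [plk, pv, qv]⟩, ⟨3, 1, by simp [plk, pv, qv]⟩,
    ⟨4, 1, by simp [plk, pv, qv]⟩, ⟨5, 1, by simp [plk, pv, qv]⟩, ⟨0, 2, by simp [plk, pv, qv]⟩,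
    ⟨0, 3, by simp [plk, pv, qv]⟩, ⟨0, 4, by simp [plk, pv, qv]⟩, ⟨0, 5, by simp [plk, pv, qv]⟩]

theorem val_eq_one {f : L} (h0 : f ≠ 0) (h : ∀ V : RZ ℂ L, V.v f ≤ 1) (V : RZ ℂ L) :
    V.v f = 1 := by
  obtain ⟨c, rfl⟩ := minpoly.mem_range_of_degree_eq_one ℂ f
    (IsAlgClosed.degree_eq_one_of_irreducible ℂ (minpoly.irreducible
      (Fano21.isIntegral_of_val fun W hW => RZ.le_one_iff.1 (h ⟨W, hW⟩))))
  exact V.v_alg fun e => h0 (by rw [e, map_zero])

namespace Dat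

variable {Λ : Lines G₀ F L} {G : Pre R P} {h : G.Sm} {L' : Type} [Field L'] [Algebra ℂ L']
  (D : Dat Λ G h L')

/-- the Pluecker vector -/
def om (m : Fin 6 × Fin 6) : L' := D.w * plk (pv D.a) (qv D.a) m.1 m.2

/-- invariant sections which vanish along the diagonal -/
def NN (k : ℕ) : Submodule ℂ L' where
  carrier := {x | x ∈ D.VV k ∧ x ∈ D.Od (k * D.m) ∧ D.τ (x / D.w ^ k) = x / D.w ^ k}
  add_mem' hx hy := ⟨add_mem hx.1 hy.1, add_mem hx.2.1 hy.2.1, by
    rw [add_div, map_add, hx.2.2, hy.2.2]⟩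
  zero_mem' := ⟨zero_mem _, zero_mem _, by simp⟩
  smul_mem' c x hx := ⟨Submodule.smul_mem _ _ hx.1, Submodule.smul_mem _ _ hx.2.1, by
    rw [smul_div_assoc, map_smul, hx.2.2]⟩

/-- forms in the Pluecker vector -/
def T (k : ℕ) : Submodule ℂ L' :=
  (homogeneousSubmodule (Fin 6 × Fin 6) ℂ k).map (aeval D.om).toLinearMap

variable {D}

theorem plk_O (i j : Fin 6) : plk (pv D.a) (qv D.a) i j ∈ D.R'.O ∧
    D.R'.r (plk (pv D.a) (qv D.a) i j) = Λ.plk (i, j) := by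
  refine ⟨plk_mem _ D.aO i j, ?_⟩
  have h1 := map_plk D.R'.ρ (fun i => ⟨D.a i, D.aO i⟩) i j
  have h2 := map_plk D.R'.O.subtype (fun i => ⟨D.a i, D.aO i⟩) i j
  simp only [Red.ρ_apply, D.a0, Subring.subtype_apply] at h1 h2
  rw [← h2, h1]
  rfl

theorem om_O (m : Fin 6 × Fin 6) : D.om m ∈ D.R'.O ∧ D.R'.r (D.om m) = D.R'.r D.w * Λ.plk m :=
  ⟨mul_mem D.wO (plk_O ..).1, by rw [om, D.R'.r_mul D.wO (plk_O ..).1, (plk_O ..).2]⟩

theorem τ_plk (i j : Fin 6) : D.τ (plk (pv D.a) (qv D.a) i j) = plk (pv D.a) (qv D.a) i j := by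
  have := map_plk (D.τ : L' →+* L') D.a i j
  simpa only [RingHom.coe_coe, D.aτ] using this

theorem NN_mul (k l : ℕ) (x : L') (hx : x ∈ D.NN k) (y : L') (hy : y ∈ D.NN l) :
    x * y ∈ D.NN (k + l) :=
  ⟨VV_mul hx.1 hy.1, by rw [add_mul]; exact D.Od_mul _ _ _ hx.2.1 _ hy.2.1, by
    rw [pow_add, mul_div_mul_comm, map_mul, hx.2.2, hy.2.2]⟩

theorem one_NN : 1 ∈ D.NN 0 := ⟨one_mem_VV, by rw [zero_mul]; exact VV_Od one_mem_VV, by simp⟩

theorem om_NN (m : Fin 6 × Fin 6) : D.om m ∈ D.NN 1 :=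
  ⟨pl_VV _ _, by rw [one_mul]; exact D.ord _ _, by
    rw [pow_one, om, mul_div_cancel_left₀ _ D.w_ne, τ_plk]⟩

theorem T_le (k : ℕ) : D.T k ≤ D.NN k := by
  rintro _ ⟨p, hp, rfl⟩
  exact aeval_mem D.NN one_NN NN_mul om_NN hp

theorem T_mul {k l : ℕ} {x y : L'} (hx : x ∈ D.T k) (hy : y ∈ D.T l) : x * y ∈ D.T (k + l) := by
  obtain ⟨p, hp, rfl⟩ := hx
  obtain ⟨q, hq, rfl⟩ := hy
  exact ⟨p * q, IsHomogeneous.mul hp hq, map_mul (aeval D.om) p q⟩

theorem T_pow {k : ℕ} {x : L'} (hx : x ∈ D.T k) (n : ℕ) : x ^ n ∈ D.T (k * n) := by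
  obtain ⟨p, hp, rfl⟩ := hx
  exact ⟨p ^ n, IsHomogeneous.pow hp n, map_pow (aeval D.om) p n⟩

theorem om_T (m : Fin 6 × Fin 6) : D.om m ∈ D.T 1 := ⟨X m, isHomogeneous_X _ _, aeval_X _ _⟩

theorem w_T (n : ℕ) : D.w ^ n ∈ D.T n := by
  simpa [om, Rig38.plk01] using T_pow (om_T (D := D) (0, 1)) n

theorem T_adj {k : ℕ} {x : L'} (hx : x ∈ D.T k) :
    x / D.w ^ k ∈ IntermediateField.adjoin ℂ (Set.range D.a) := by
  obtain ⟨p, hp, rfl⟩ := hx
  have e : aeval D.om p = D.w ^ k * aeval (fun m : Fin 6 × Fin 6 =>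
    plk (pv D.a) (qv D.a) m.1 m.2) p := Rig38.aeval_hom_mul hp _ _
  change aeval D.om p / _ ∈ _
  rw [e, mul_div_cancel_left₀ _ (pow_ne_zero _ D.w_ne)]
  exact Algebra.adjoin_le (S := (IntermediateField.adjoin ℂ (Set.range D.a)).toSubalgebra)
    (Set.range_subset_iff.2 fun m => plk_mem (IntermediateField.adjoin ℂ (Set.range D.a))
      (fun i => IntermediateField.subset_adjoin _ _ ⟨i, rfl⟩) _ _)
    (by rw [Algebra.adjoin_range_eq_range_aeval]; exact ⟨p, rfl⟩)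

theorem red_NN {k : ℕ} {x : L'} (hx : x ∈ D.NN (D.r * k)) (hO : x ∈ D.R'.O) :
    (D.lam * (Λ.ι (R.r D.β) * Λ.τ (Λ.ι (R.r D.β)))) ^ k * D.R'.r x ∈
      ((D.r * k) • mxf ℂ Λ.plk).Sec := by
  have := D.sec k _ (red_VV hx.1 hO) (by
    rw [map_mul, map_pow, map_mul, D.ν1 _ D.β0, D.ν2 _ D.β0, mul_one, one_pow, mul_one]
    exact D.Od_r _ _ hx.2.1 hO)
  convert this using 1
  ring

theorem v_mu (V : RZ ℂ L) :
    V.v (D.lam * (Λ.ι (R.r D.β) * Λ.τ (Λ.ι (R.r D.β))) * D.R'.r D.w ^ D.r) = 1 := by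
  refine val_eq_one (mul_ne_zero (mul_ne_zero D.lam0 (mul_ne_zero ((map_ne_zero _).2 D.β0)
    ((map_ne_zero _).2 ((map_ne_zero _).2 D.β0)))) (pow_ne_zero _ D.w0)) (fun V => ?_) V
  obtain ⟨m, hm⟩ := exists_val_mxf (k := ℂ) (s := Λ.plk) ⟨(0, 1), by
    change plk (pv Λ.a) (qv Λ.a) 0 1 ≠ 0
    rw [Rig38.plk01]
    exact one_ne_zero⟩ V
  have h1 : D.om m ^ D.r ∈ D.NN (D.r * 1) := T_le _ (by simpa using T_pow (om_T m) D.r)
  have h2 := red_NN h1 (pow_mem (om_O m).1 _) V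
  rw [Red.r_pow (om_O m).1, (om_O m).2, pow_one, mul_pow, ← mul_assoc, map_mul, val_nsmul, mul_one,
    map_pow, hm] at h2
  exact (mul_le_iff_le_one_left (pow_pos (BD.val_pos _ V) _)).1 h2

theorem key (hG : SmCub G₀) {k : ℕ} {x : L'} (hx : x ∈ D.NN (D.r * k)) (hO : x ∈ D.R'.O) :
    D.R'.r x ∈ (homogeneousSubmodule (Fin 6 × Fin 6) ℂ (D.r * k)).map
      (aeval fun m => D.R'.r (D.om m)).toLinearMap := by
  have hw : D.R'.r (D.w ^ (D.r * k)) ≠ 0 := by
    rw [Red.r_pow D.wO]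
    exact pow_ne_zero _ D.w0
  have h1 := Red.div_mem hO (pow_mem D.wO _) hw
  have h2 := Red.r_div hO (pow_mem D.wO _) hw
  rw [Red.r_pow D.wO] at h2 hw
  obtain ⟨p, hp, e⟩ := Rig38.sec_form hG.1 (Fano21.rsqStmt G₀ hG.1 hG.2) (Fano21.genPt Λ hG)
    (Fano21.nrmSec Λ hG (Fano21.genPt Λ hG) (D.r * k) (D.R'.r (x / D.w ^ (D.r * k)))
      (by rw [← (D.τO _ h1).2, hx.2.2]) fun V => by
        have h3 := red_NN hx hO V
        rwa [← div_mul_cancel₀ (D.R'.r x) hw, ← h2, pow_mul (D.R'.r D.w), mul_comm (D.R'.r _),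
          ← mul_assoc,
          ← mul_pow, map_mul, map_pow, v_mu, one_pow, one_mul] at h3)
  refine ⟨p, hp, ?_⟩
  simp only [(om_O _).2, AlgHom.toLinearMap_apply]
  rw [Rig38.aeval_hom_mul hp, ← div_mul_cancel₀ (D.R'.r x) hw, ← h2, e, mul_comm]
  rfl

theorem nak (hG : SmCub G₀) {k : ℕ} {x : L'} (hx : x ∈ D.NN (D.r * k)) : x ∈ D.T (D.r * k) := by
  have f1 : Module.Finite ℂ (D.T (D.r * k)) :=
    Module.Finite.iff_fg.2 ((homogeneousSubmodule_fg _ _ _).map _)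
  have f2 : Module.Finite ℂ ((homogeneousSubmodule (Fin 6 × Fin 6) ℂ (D.r * k)).map
      (aeval fun m => D.R'.r (D.om m)).toLinearMap) :=
    Module.Finite.iff_fg.2 ((homogeneousSubmodule_fg _ _ _).map _)
  have h1 := Red.finrank_le (R := D.R') (V := D.T (D.r * k) ⊔ Submodule.span ℂ {x})
    fun f hf hO => key hG (sup_le (T_le _) ((Submodule.span_singleton_le_iff_mem _ _).2 hx) hf) hO
  have h2 := Red.finrank_ge (R := D.R') (V := D.T (D.r * k))
    (W := (homogeneousSubmodule (Fin 6 × Fin 6) ℂ (D.r * k)).map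
      (aeval fun m => D.R'.r (D.om m)).toLinearMap) (by
      rintro _ ⟨p, hp, rfl⟩
      obtain ⟨q, hq, rfl⟩ := Red.exists_lift_form (R := D.R') hp
      have := Red.r_aeval (fun m => (om_O (D := D) m).1) q
      exact ⟨_, ⟨D.R'.up q, hq.map _, rfl⟩, this.1, this.2⟩)
  rw [Submodule.eq_of_le_of_finrank_le le_sup_left (h1.trans h2)]
  exact Submodule.mem_sup_right (Submodule.mem_span_singleton_self x)

theorem exists_T {c : L'} (hc : c ∈ Algebra.adjoin ℂ (Set.range D.a)) :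
    ∃ e₀, ∀ e, e₀ ≤ e → D.w ^ e * c ∈ D.T e := by
  have up : ∀ (c : L') e₀, D.w ^ e₀ * c ∈ D.T e₀ → ∀ e, e₀ ≤ e → D.w ^ e * c ∈ D.T e :=
    fun c e₀ h e he => by
    obtain ⟨d, rfl⟩ := Nat.exists_eq_add_of_le' he
    rw [pow_add, mul_assoc]
    exact T_mul (w_T d) h
  induction hc using Algebra.adjoin_induction with
  | mem x hx =>
    obtain ⟨i, rfl⟩ := hx
    obtain ⟨k, l, e⟩ := exists_plk_eq D.a i
    exact ⟨1, up _ 1 (by rw [pow_one, e]; exact om_T (k, l))⟩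
  | algebraMap c =>
    exact ⟨0, fun e _ => by
      rw [mul_comm, ← Algebra.smul_def]; exact Submodule.smul_mem _ _ (w_T e)⟩
  | add x y _ _ hx hy =>
    obtain ⟨e, he⟩ := hx
    obtain ⟨e', he'⟩ := hy
    exact ⟨e + e', fun d hd => by
      rw [mul_add]; exact add_mem (he d (by omega)) (he' d (by omega))⟩
  | mul x y _ _ hx hy =>
    obtain ⟨e, he⟩ := hx
    obtain ⟨e', he'⟩ := hy
    refine ⟨e + e', up _ _ ?_⟩
    rw [pow_add, mul_mul_mul_comm]
    exact T_mul (he e le_rfl) (he' e' le_rfl)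

theorem isAlgebraic (x : L') : IsAlgebraic (Algebra.adjoin ℂ (Set.range D.a)) x := by
  have h1 : Algebra.IsAlgebraic (Algebra.adjoin ℂ (Set.range Λ.a)) L :=
    IntermediateField.isAlgebraic_adjoin_iff_top.1
      (Brg.Lines.isAlgebraic_of_fix Λ.inv fun x => (Λ.fix x).1)
  obtain ⟨t, ht, hb⟩ := exists_isTranscendenceBasis_subset (R := ℂ) (Set.range Λ.a)
  choose i hi using fun y : t => ht y.2
  have h2 : AlgebraicIndependent ℂ fun y : t => D.a (i y) :=
    Red.algIndep_of_r (R := D.R') (fun y => D.aO _) (by simpa only [D.a0, hi] using hb.1)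
  let u : t → L' := fun y => D.a (i y)
  have h3 : IsTranscendenceBasis ℂ u := h2.isTranscendenceBasis_of_lift_trdeg_le
    (by rw [D.dim]; exact Cardinal.natCast_lt_aleph0 (n := 4))
    (by rw [hb.cardinalMk_eq_trdeg, D.dim, Λ.dim])
  exact (h3.isAlgebraic.1 x).tower_top_of_subalgebra_le
    (Algebra.adjoin_mono (Set.range_comp_subset_range i D.a))

theorem exists_h (hm : 0 < D.m) : ∃ e, ∃ y ∈ D.T e, y ≠ 0 ∧ y ∈ D.Od (e * D.m + 1) := by
  obtain ⟨q, h0, hq⟩ := (isAlgebraic (D := D) D.w).exists_nonzero_coeff_and_aeval_eq_zero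
    (mem_nonZeroDivisors_of_ne_zero D.w_ne)
  choose e₀ he using fun i => exists_T (D := D) (q.coeff i).2
  obtain ⟨e, hE⟩ : ∃ e, ∀ i ∈ Finset.range (q.natDegree + 1 + 1), e₀ i ≤ e :=
    ⟨_, fun i hi => Finset.le_sup (f := e₀) hi⟩
  refine ⟨e, _, he 0 e (hE 0 (by simp)), mul_ne_zero (pow_ne_zero _ D.w_ne)
    fun e => h0 (Subtype.ext e), ?_⟩
  rw [Polynomial.aeval_eq_sum_range' (n := q.natDegree + 1 + 1) (by omega),
    Finset.sum_range_succ', pow_zero, Algebra.smul_def, mul_one] at hq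
  have e1 : D.w ^ e * (q.coeff 0 : L') = -∑ i ∈ Finset.range (q.natDegree + 1),
      D.w ^ e * (q.coeff (i + 1) : L') * (D.w * D.w ^ i) := by
    have : (q.coeff 0 : L') = -∑ i ∈ Finset.range (q.natDegree + 1),
      q.coeff (i + 1) • D.w ^ (i + 1) := eq_neg_of_add_eq_zero_right hq
    rw [this, mul_neg, Finset.mul_sum]
    refine congrArg _ (Finset.sum_congr rfl fun i _ => ?_)
    rw [Algebra.smul_def, pow_succ', mul_assoc]
    rfl
  rw [e1]
  refine neg_mem (Submodule.sum_mem _ fun i hi => D.Od_mul _ _ _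
    (T_le _ (he _ e (hE _ (by simpa using hi)))).2.1 _ (D.Od_mul 1 0 _ ?_ _ (VV_Od (w_VV i))))
  exact D.Od_anti _ _ hm (by simpa [Rig38.plk01] using D.ord 0 1)

theorem exists_H (d : ℕ) : ∃ e, ∃ y ∈ D.T e, y ≠ 0 ∧ y ∈ D.Od ((e + d) * D.m) := by
  rcases Nat.eq_zero_or_pos D.m with hm | hm
  · exact ⟨0, _, w_T 0, pow_ne_zero _ D.w_ne, by rw [hm]; exact VV_Od (w_VV 0)⟩
  · obtain ⟨e, y, h1, h2, h3⟩ := exists_h (D := D) hm
    have hp : ∀ n, y ^ n ∈ D.Od ((e * D.m + 1) * n) := fun n => by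
      induction n with
      | zero => simpa using VV_Od (D := D) one_mem_VV
      | succ n ih => rw [pow_succ, mul_add, mul_one]; exact D.Od_mul _ _ _ ih _ h3
    exact ⟨_, _, T_pow h1 (d * D.m), pow_ne_zero _ h2, by
      convert hp (d * D.m) using 2; ring⟩

variable (D) in
/-- **DEG** -/
theorem fix (hG : SmCub G₀) (x : L') :
    D.τ x = x ↔ x ∈ IntermediateField.adjoin ℂ (Set.range D.a) := by
  refine ⟨fun hx => ?_, fun hx => ?_⟩
  · obtain ⟨d, s, hs, s', hs', h0, e⟩ := exists_frac (D := D) x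
    obtain ⟨n, y, h1, h2, h3⟩ := exists_H (D := D) (d + d)
    obtain ⟨r, hr⟩ : ∃ r, D.r = r + 1 := Nat.exists_eq_succ_of_ne_zero D.r_pos.ne'
    have hw : D.τ (D.w ^ (d + d)) = D.w ^ (d + d) := by
      rw [← two_mul, pow_mul, map_pow, D.wτ]
    have mem : ∀ z ∈ D.VV (d + d), D.τ z = z → D.w ^ (r * (n + (d + d))) * (y * z) /
        D.w ^ (D.r * (n + (d + d))) ∈ IntermediateField.adjoin ℂ (Set.range D.a) := fun z hz hz' => by
      refine T_adj (nak hG ?_)
      rw [hr, add_mul, one_mul]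
      refine NN_mul _ _ _ (T_le _ (w_T _)) _ ⟨VV_mul (T_le _ h1).1 hz,
        D.Od_mul _ 0 _ h3 _ (VV_Od hz), ?_⟩
      rw [pow_add, mul_div_mul_comm, map_mul, (T_le _ h1).2.2, map_div₀, hw, hz']
    have h4 := div_mem (mem _ (VV_mul hs (τ_VV hs')) (by
        rw [← e, map_mul, map_mul, hx, D.inv]; ring))
      (mem _ (VV_mul hs' (τ_VV hs')) (by rw [map_mul, D.inv, mul_comm]))
    have h5 : D.τ s' ≠ 0 := (map_ne_zero _).2 h0
    have h6 := D.w_ne
    convert h4 using 1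
    rw [← e]
    field_simp
  · refine (IntermediateField.adjoin_le_iff (T := ⟨AlgHom.equalizer D.τ (AlgHom.id ℂ L'),
      fun y (hy : D.τ y = y) => show D.τ y⁻¹ = y⁻¹ by rw [map_inv₀, hy]⟩)).2 ?_ hx
    rintro _ ⟨i, rfl⟩
    exact D.aτ i

end Dat

end Crest.Agent.X262.Deg38
end
end

-- ▼ part X262/Pui27/Hn
section

/-!
# Row 262, G4/ALG (helper27): Hahn series with rational exponents, Puiseux series

* `Hn A`, `hm f`, `pu A e he` (`X ↦ t ^ (1 / e)`), `tq q = t ^ q`;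
* `Lv A e`, `Pu A` : series with exponents in `(1 / e) ℤ`, Puiseux series; `O A` : order `≥ 0`;
* `lev` : the level lemma; `exists_nrm` : normalisation of a finite family;
* `PuF K` : the field of Puiseux series; it is algebraically closed; `kap : ℂ ≃+* PuF ℂ`.
-/

set_option autoImplicit false

open HahnSeries (single)
open scoped PowerSeries

noncomputable section

namespace Crest.Agent.X262.Pui27

/-- Hahn series with rational exponents -/
abbrev Hn (A : Type*) [Zero A] := HahnSeries ℚ A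

section Ring

variable {A B D : Type*} [CommRing A] [CommRing B] [CommRing D] {x y : Hn A} {e : ℕ} {q : ℚ}

/-- a ring homomorphism acts on the coefficients -/
def hm (f : A →+* B) : Hn A →+* Hn B where
  toFun x := x.map f
  map_one' := HahnSeries.map_one f.toMonoidWithZeroHom
  map_mul' _ _ := HahnSeries.map_mul f.toNonUnitalRingHom
  map_zero' := HahnSeries.map_zero f.toAddMonoidHom.toZeroHom
  map_add' _ _ := HahnSeries.map_add f.toAddMonoidHom

@[simp] theorem coeff_hm (f : A →+* B) (x : Hn A) (q : ℚ) : (hm f x).coeff q = f (x.coeff q) := rfl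

theorem hm_hm (g : B →+* D) (f : A →+* B) (x : Hn A) : hm g (hm f x) = hm (g.comp f) x := rfl


@[simp] theorem hm_single (f : A →+* B) (q : ℚ) (a : A) : hm f (single q a) = single q (f a) :=
  HahnSeries.map_single f.toAddMonoidHom.toZeroHom

/-- division of the exponents -/
def dv (e : ℕ) : ℕ →+ ℚ := ⟨⟨fun n => n / e, by simp⟩, fun m n => by push_cast; ring⟩

theorem dv_le (he : e ≠ 0) (m n : ℕ) : dv e m ≤ dv e n ↔ m ≤ n :=
  (div_le_div_iff_of_pos_right (Nat.cast_pos.2 (Nat.pos_of_ne_zero he))).trans Nat.cast_le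

theorem dv_inj (he : e ≠ 0) : Function.Injective (dv e) := fun m n h =>
  le_antisymm ((dv_le he m n).1 h.le) ((dv_le he n m).1 h.ge)

variable (A e) in
/-- power series in `t ^ (1 / e)` -/
def pu (he : e ≠ 0) : A⟦X⟧ →+* Hn A :=
  (HahnSeries.embDomainRingHom (dv e) (dv_inj he) (dv_le he)).comp
    HahnSeries.toPowerSeries.symm.toRingHom

section Pu

variable (he : e ≠ 0) {f : A⟦X⟧}

theorem coeff_pu (f : A⟦X⟧) (n : ℕ) : (pu A e he f).coeff (n / e) = PowerSeries.coeff n f :=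
  HahnSeries.embDomain_mk_coeff (dv_inj he) (dv_le he) (a := n)

theorem coeff_pu_ne (h : (pu A e he f).coeff q ≠ 0) : ∃ n : ℕ, q = n / e := by
  by_contra hc
  exact h (HahnSeries.embDomain_of_notMem_range fun ⟨n, hn⟩ => hc ⟨n, hn.symm⟩)

theorem pu_eq (h1 : ∀ n : ℕ, x.coeff (n / e) = PowerSeries.coeff n f)
    (h2 : ∀ q, x.coeff q ≠ 0 → ∃ n : ℕ, q = n / e) : pu A e he f = x := by
  ext q
  by_cases h : ∃ n : ℕ, q = n / e
  · obtain ⟨n, rfl⟩ := h
    rw [coeff_pu, h1]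
  · rw [not_not.1 fun h3 => h (coeff_pu_ne he h3), not_not.1 fun h3 => h (h2 q h3)]

theorem coeff_zero_pu (f : A⟦X⟧) : (pu A e he f).coeff 0 = PowerSeries.constantCoeff f := by
  simpa using coeff_pu he f 0

theorem pu_injective : Function.Injective (pu A e he) := fun f g h => by
  ext n
  rw [← coeff_pu he, h, coeff_pu]




theorem hm_pu (φ : A →+* B) (f : A⟦X⟧) :
    hm φ (pu A e he f) = pu B e he (PowerSeries.map φ f) :=
  (pu_eq he (fun n => by rw [coeff_hm, coeff_pu, PowerSeries.coeff_map]) fun q hq =>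
    coeff_pu_ne he fun h => hq (by rw [coeff_hm, h, map_zero])).symm

theorem pu_expand {a : ℕ} (ha : a ≠ 0) (f : A⟦X⟧) :
    pu A (a * e) (mul_ne_zero ha he) (PowerSeries.expand a ha f) = pu A e he f := by
  have ha' : (a : ℚ) ≠ 0 := Nat.cast_ne_zero.2 ha
  have key : ∀ m : ℕ, ((a * m : ℕ) : ℚ) / (a * e : ℕ) = m / e := fun m => by
    push_cast
    exact mul_div_mul_left _ _ ha'
  refine pu_eq _ (fun n => ?_) fun q hq => (coeff_pu_ne he hq).elim fun n hn =>
    ⟨a * n, by rw [key, hn]⟩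
  by_cases h : a ∣ n
  · obtain ⟨m, rfl⟩ := h
    rw [key, coeff_pu, PowerSeries.coeff_expand_mul]
  · rw [PowerSeries.coeff_expand_of_not_dvd _ _ _ h]
    by_contra h1
    obtain ⟨m, hm⟩ := coeff_pu_ne he h1
    exact h ⟨m, dv_inj (mul_ne_zero ha he) (hm.trans (key m).symm)⟩

end Pu

theorem exists_of_mul (h : (x * y).coeff q ≠ 0) :
    ∃ a b, x.coeff a ≠ 0 ∧ y.coeff b ≠ 0 ∧ a + b = q := by
  obtain ⟨a, ha, b, hb, h1⟩ := HahnSeries.support_mul_subset h
  exact ⟨a, b, ha, hb, h1⟩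

variable (A) in
/-- series with exponents in an additive submonoid -/
def Sp (S : AddSubmonoid ℚ) : Subring (Hn A) where
  carrier := {x | ∀ q, x.coeff q ≠ 0 → q ∈ S}
  zero_mem' _ h := (h rfl).elim
  one_mem' q h := by
    rw [HahnSeries.eq_of_mem_support_single h]
    exact zero_mem S
  add_mem' {x y} hx hy q h := by
    by_cases h1 : x.coeff q = 0
    · exact hy q (by simpa [h1] using h)
    · exact hx q h1
  neg_mem' hx q h := hx q (by simpa using h)
  mul_mem' hx hy q h := by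
    obtain ⟨a, b, h1, h2, rfl⟩ := exists_of_mul h
    exact add_mem (hx a h1) (hy b h2)

theorem single_mem_Sp {S : AddSubmonoid ℚ} (h : q ∈ S) (a : A) : single q a ∈ Sp A S :=
  fun _ h1 => HahnSeries.eq_of_mem_support_single h1 ▸ h

/-- the exponents of level `e` -/
def lv (e : ℕ) : AddSubmonoid ℚ where
  carrier := {q | ∃ n : ℤ, q * e = n}
  zero_mem' := ⟨0, by simp⟩
  add_mem' := fun ⟨m, hm⟩ ⟨n, hn⟩ => ⟨m + n, by rw [add_mul, hm, hn, Int.cast_add]⟩

variable (A e) in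
/-- series of level `e` -/
def Lv : Subring (Hn A) := Sp A (lv e)

variable (A) in
/-- series of nonnegative order -/
def O : Subring (Hn A) := Sp A (AddSubmonoid.nonneg ℚ)


theorem mem_O_iff : x ∈ O A ↔ 0 ≤ x.order :=
  ⟨fun h => (eq_or_ne x 0).elim (fun h1 => by simp [h1]) fun h1 =>
    h _ (HahnSeries.coeff_order_eq_zero.not.2 h1),
    fun h _ h1 => h.trans (HahnSeries.order_le_of_coeff_ne_zero h1)⟩

theorem Lv_le {e' : ℕ} (h : e ∣ e') : Lv A e ≤ Lv A e' := fun _ hx q hq => by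
  obtain ⟨a, rfl⟩ := h
  obtain ⟨n, hn⟩ := hx q hq
  exact ⟨n * a, by rw [Nat.cast_mul, ← mul_assoc, hn, Int.cast_mul, Int.cast_natCast]⟩

variable (A) in
/-- Puiseux series -/
def Pu : Subring (Hn A) where
  carrier := {x | ∃ e, e ≠ 0 ∧ x ∈ Lv A e}
  zero_mem' := ⟨1, one_ne_zero, zero_mem _⟩
  one_mem' := ⟨1, one_ne_zero, one_mem _⟩
  add_mem' := fun ⟨e, he, h⟩ ⟨e', he', h'⟩ => ⟨e * e', mul_ne_zero he he',
    add_mem (Lv_le (dvd_mul_right _ _) h) (Lv_le (dvd_mul_left _ _) h')⟩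
  neg_mem' := fun ⟨e, he, h⟩ => ⟨e, he, neg_mem h⟩
  mul_mem' := fun ⟨e, he, h⟩ ⟨e', he', h'⟩ => ⟨e * e', mul_ne_zero he he',
    mul_mem (Lv_le (dvd_mul_right _ _) h) (Lv_le (dvd_mul_left _ _) h')⟩

theorem single_mem_Pu (q : ℚ) (a : A) : single q a ∈ Pu A :=
  ⟨q.den, q.den_nz, single_mem_Sp (S := lv q.den) ⟨q.num, q.mul_den_eq_num⟩ a⟩

theorem single_mem_O (h : 0 ≤ q) (a : A) : single q a ∈ O A := single_mem_Sp h a

theorem pu_mem_Lv (he : e ≠ 0) (f : A⟦X⟧) : pu A e he f ∈ Lv A e := fun _ h =>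
  (coeff_pu_ne he h).elim fun n hn =>
    ⟨n, by rw [hn, div_mul_cancel₀ _ (Nat.cast_ne_zero.2 he), Int.cast_natCast]⟩

theorem pu_mem_Pu (he : e ≠ 0) (f : A⟦X⟧) : pu A e he f ∈ Pu A := ⟨e, he, pu_mem_Lv he f⟩

theorem pu_mem_O (he : e ≠ 0) (f : A⟦X⟧) : pu A e he f ∈ O A := fun _ h =>
  (coeff_pu_ne he h).elim fun n hn => hn ▸ (by positivity : (0 : ℚ) ≤ n / e)

theorem map_mem_Sp {S : AddSubmonoid ℚ} {M : Type*} [FunLike M A B] [ZeroHomClass M A B] (φ : M)
    (h : x ∈ Sp A S) : x.map φ ∈ Sp B S := fun q hq =>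
  h q fun h1 => hq (by rw [HahnSeries.map_coeff, h1, map_zero])

theorem hm_mem_O (f : A →+* B) (h : x ∈ O A) : hm f x ∈ O B := map_mem_Sp f h

theorem hm_mem_Pu (f : A →+* B) (h : x ∈ Pu A) : hm f x ∈ Pu B :=
  h.imp fun _ h1 => ⟨h1.1, map_mem_Sp f h1.2⟩

theorem mem_O_of_hm {f : A →+* B} (hf : Function.Injective f) (h : hm f x ∈ O B) : x ∈ O A :=
  fun q hq => h q fun h1 => hq (hf (h1.trans (map_zero f).symm))

theorem exists_pu (he : e ≠ 0) (h : x ∈ Lv A e) (h0 : x ∈ O A) : ∃ f, pu A e he f = x := by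
  refine ⟨PowerSeries.mk fun n => x.coeff (n / e), pu_eq he (fun n => by simp) fun q hq => ?_⟩
  obtain ⟨n, hn⟩ := h q hq
  have h1 : (0 : ℚ) ≤ n := hn ▸ mul_nonneg (h0 q hq) (Nat.cast_nonneg _)
  lift n to ℕ using Int.cast_nonneg_iff.1 h1
  exact ⟨n, by rw [eq_div_iff (Nat.cast_ne_zero.2 he), hn, Int.cast_natCast]⟩

theorem exists_lv {T : Set (Hn A)} (hT : T.Finite) (h : ∀ x ∈ T, x ∈ Pu A) :
    ∃ e, e ≠ 0 ∧ ∀ x ∈ T, x ∈ Lv A e := by
  lift T to Finset (Hn A) using hT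
  choose! e h1 h2 using h
  exact ⟨∏ x ∈ T, e x, Finset.prod_ne_zero_iff.2 h1,
    fun x hx => Lv_le (Finset.dvd_prod_of_mem _ hx) (h2 x hx)⟩

/-- **the level lemma** -/
theorem lev {ι : Type*} [Finite ι] {x : ι → Hn A} (h : ∀ i, x i ∈ Pu A) (h0 : ∀ i, x i ∈ O A) :
    ∃ (e : ℕ) (he : e ≠ 0) (f : ι → A⟦X⟧), ∀ i, pu A e he (f i) = x i := by
  obtain ⟨e, he, h1⟩ := exists_lv (Set.finite_range x) (Set.forall_mem_range.2 h)
  choose f hf using fun i => exists_pu he (h1 _ ⟨i, rfl⟩) (h0 i)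
  exact ⟨e, he, f, hf⟩

theorem coeff_zero_mul (hx : x ∈ O A) (hy : y ∈ O A) : (x * y).coeff 0 = x.coeff 0 * y.coeff 0 := by
  rw [HahnSeries.coeff_mul]
  refine Finset.sum_eq_single (0, 0) (fun p hp h => (h ?_).elim) fun h => ?_
  · obtain ⟨h1, h2, h3⟩ := Finset.mem_antidiagonal.1 hp
    exact Prod.ext_iff.2 ((add_eq_zero_iff_of_nonneg (hx _ h1) (hy _ h2)).1 h3)
  · by_contra h1
    exact h (Finset.mem_antidiagonal.2 ⟨left_ne_zero_of_mul h1, right_ne_zero_of_mul h1, add_zero _⟩)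

variable (A) in
/-- the reduction -/
def rd : O A →+* A where
  toFun x := x.1.coeff 0
  map_one' := by simp
  map_mul' x y := coeff_zero_mul x.2 y.2
  map_zero' := rfl
  map_add' _ _ := rfl

theorem single_mul_mem_O : single q 1 * x ∈ O A ↔ ∀ p, x.coeff p ≠ 0 → -q ≤ p := by
  refine ⟨fun h p hp => neg_le_iff_add_nonneg.2 (h _ ?_), fun h p hp => ?_⟩
  · rwa [HahnSeries.coeff_single_mul_add, one_mul]
  · rw [HahnSeries.coeff_single_mul, one_mul] at hp
    exact (by simpa using h _ hp : 0 ≤ p)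

theorem coeff_zero_single_mul : (single q 1 * x).coeff 0 = x.coeff (-q) := by
  rw [HahnSeries.coeff_single_mul, one_mul, zero_sub]

/-- **normalisation** of a finite family -/
theorem exists_nrm {ι : Type*} [Finite ι] {x : ι → Hn A} (h : ∃ i, x i ≠ 0) :
    ∃ q : ℚ, (∀ i, single q 1 * x i ∈ O A) ∧ ∃ i, (single q 1 * x i).coeff 0 ≠ 0 := by
  obtain ⟨i, hi, h1⟩ := Set.exists_min_image {i | x i ≠ 0} (fun i => (x i).order)
    (Set.toFinite _) h
  refine ⟨-(x i).order, fun j => single_mul_mem_O.2 fun p hp => ?_, i, ?_⟩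
  · rw [neg_neg]
    exact (h1 j fun h2 => hp (by simp [h2])).trans (HahnSeries.order_le_of_coeff_ne_zero hp)
  · rwa [coeff_zero_single_mul, neg_neg, Ne, HahnSeries.coeff_order_eq_zero]

theorem exists_shift {T : Set (Hn A)} (hT : T.Finite) :
    ∃ n : ℕ, ∀ x ∈ T, single (n : ℚ) 1 * x ∈ O A := by
  obtain ⟨b, hb⟩ := (hT.image HahnSeries.order).bddBelow
  obtain ⟨n, hn⟩ := exists_nat_ge (-b)
  exact ⟨n, fun x hx => single_mul_mem_O.2 fun p hp => ((neg_le.1 hn).trans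
    (hb ⟨x, hx, rfl⟩)).trans (HahnSeries.order_le_of_coeff_ne_zero hp)⟩


end Ring

section Field

variable {K : Type*} [Field K] {x y : Hn K}

theorem tq_ne (q : ℚ) : (single q 1 : Hn K) ≠ 0 := HahnSeries.single_ne_zero one_ne_zero

theorem order_inv (x : Hn K) : x⁻¹.order = -x.order := by
  rcases eq_or_ne x 0 with rfl | h
  · simp
  have h1 := HahnSeries.order_mul h (inv_ne_zero h)
  rw [mul_inv_cancel₀ h, HahnSeries.order_one] at h1
  exact eq_neg_of_add_eq_zero_right h1.symm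

theorem mem_O_or_inv (x : Hn K) : x ∈ O K ∨ x⁻¹ ∈ O K := by
  rw [mem_O_iff, mem_O_iff, order_inv, neg_nonneg]
  exact le_total _ _

theorem inv_mem_O (h0 : x.coeff 0 ≠ 0) : x⁻¹ ∈ O K := by
  rw [mem_O_iff, order_inv, neg_nonneg]
  exact HahnSeries.order_le_of_coeff_ne_zero h0


theorem inv_mem_Pu (h : x ∈ Pu K) : x⁻¹ ∈ Pu K := by
  rcases eq_or_ne x 0 with rfl | h0
  · simp
  obtain ⟨q, h1, -, h2⟩ := exists_nrm (x := fun _ : Unit => x) ⟨(), h0⟩
  obtain ⟨e, he, h3⟩ := mul_mem (single_mem_Pu q (1 : K)) h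
  obtain ⟨f, hf⟩ := exists_pu he h3 (h1 ())
  rw [← hf, coeff_zero_pu] at h2
  have h4 := congrArg (pu K e he) (PowerSeries.mul_inv_cancel f h2)
  rw [map_mul, map_one, hf, mul_right_comm] at h4
  rw [← eq_inv_of_mul_eq_one_left h4]
  exact mul_mem (single_mem_Pu _ _) (pu_mem_Pu he _)

variable (K) in
/-- the field of Puiseux series -/
def PuF : Subfield (Hn K) := { Pu K with inv_mem' := fun _ => inv_mem_Pu }


open Polynomial in
/-- **Puiseux's theorem** -/
instance [IsAlgClosed K] [CharZero K] : IsAlgClosed (PuF K) := by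
  refine IsAlgClosed.of_exists_root _ fun p hp hi => ?_
  have hd : p.natDegree ≠ 0 := (natDegree_pos_iff_degree_pos.2 (degree_pos_of_irreducible hi)).ne'
  set p' := p.map (PuF K).subtype with hp'
  have hm : p'.Monic := hp.map _
  obtain ⟨n, hn⟩ := exists_shift p'.coeffs.finite_toSet
  set s : Hn K := single (n : ℚ) 1
  have hs : s ∈ O K := single_mem_O (Nat.cast_nonneg n) 1
  have h1 : ∀ i, (p'.scaleRoots s).coeff i ∈ Pu K := fun i => by
    rw [coeff_scaleRoots, hp', coeff_map]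
    exact mul_mem (p.coeff i).2 (pow_mem (single_mem_Pu _ _) _)
  have h2 : ∀ i, (p'.scaleRoots s).coeff i ∈ O K := fun i => by
    rw [coeff_scaleRoots]
    rcases lt_trichotomy i p'.natDegree with h | rfl | h
    · obtain ⟨k, hk⟩ := Nat.exists_eq_add_of_lt h
      by_cases h0 : p'.coeff i = 0
      · simp [h0]
      rw [show p'.natDegree - i = k + 1 by omega, pow_succ', ← mul_assoc, mul_comm _ s]
      exact mul_mem (hn _ (coeff_mem_coeffs h0)) (pow_mem hs _)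
    · simp [hm.coeff_natDegree]
    · simp [coeff_eq_zero_of_natDegree_lt h]
  obtain ⟨e, he, h3⟩ := exists_lv (p'.scaleRoots s).coeffs.finite_toSet fun x hx => by
    obtain ⟨i, -, rfl⟩ := mem_coeffs_iff.1 hx
    exact h1 i
  obtain ⟨g, g1, g2, g3⟩ := lifts_and_natDegree_eq_and_monic (f := pu K e he)
    ((lifts_iff_coeff_lifts _).2 fun i => by
      by_cases h0 : (p'.scaleRoots s).coeff i = 0
      · exact ⟨0, by rw [h0, map_zero]⟩
      · exact exists_pu he (h3 _ (coeff_mem_coeffs h0)) (h2 i)) ((monic_scaleRoots_iff s).2 hm)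
  obtain ⟨a, ha, h4⟩ := R013.Puis_702.puiseux_ps g g3
  obtain ⟨z, hz⟩ := h4.exists_eval_eq_zero (by
    rw [degree_eq_natDegree (g3.map _).ne_zero, g3.natDegree_map, g2, natDegree_scaleRoots,
      hp', hp.natDegree_map]
    exact_mod_cast hd)
  have h5 : (pu K (a * e) (mul_ne_zero ha he)).comp (R013.Puis_702.ex a ha) = pu K e he :=
    RingHom.ext fun f => pu_expand he ha f
  have h6 := congrArg (pu K (a * e) (mul_ne_zero ha he)) hz
  rw [← eval₂_hom, ← eval_map, map_map, h5, g1, map_zero,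
    ← mul_div_cancel₀ (pu K _ _ z) (tq_ne (n : ℚ)), scaleRoots_eval_mul] at h6
  refine ⟨⟨_, div_mem (pu_mem_Pu (mul_ne_zero ha he) z) (single_mem_Pu (n : ℚ) 1)⟩, ?_⟩
  refine (PuF K).subtype.injective ?_
  rw [← eval₂_hom, ← eval_map, map_zero]
  exact (mul_eq_zero.1 h6).resolve_left (pow_ne_zero _ (tq_ne _))

/-- the constants -/
def cst (K : Type*) [Field K] : K →+* PuF K :=
  (HahnSeries.C : K →+* Hn K).codRestrict (PuF K) fun a => single_mem_Pu 0 a

instance [CharZero K] : CharZero (PuF K) := (cst K).charZero_iff (cst K).injective |>.1 ‹_›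

open Cardinal in
theorem nonempty_kap : Nonempty (ℂ ≃+* PuF ℂ) := by
  refine IsAlgClosed.ringEquiv_of_equiv_of_charZero (by simp [aleph0_lt_continuum])
    (Cardinal.eq.1 (le_antisymm (mk_le_of_injective (cst ℂ).injective) ?_))
  have h : Function.Injective fun x : PuF ℂ => x.1.coeff := fun x y h =>
    Subtype.ext (HahnSeries.ext h)
  simpa using mk_le_of_injective h

/-- the complex numbers as Puiseux series -/
def kap : ℂ ≃+* PuF ℂ := nonempty_kap.some

end Field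

end Crest.Agent.X262.Pui27
end
end

-- ▼ part X262/Deg38/Lin
section

/-!
# Row 262, G4 / DEG (helper38), part 3: dimension, smoothness, order of Hahn series

* `trdeg_four`, `smCub_of`, `Dat.lines`;
* `OdH ν n` : Hahn series whose coefficients have order `≥ n`.
-/

set_option autoImplicit false
set_option linter.unusedSectionVars false

open MvPolynomial

noncomputable section

namespace Crest.Agent.X262.Deg38

open Crest.Agent.X277 Crest.Agent.X277.Lef
open Crest.Agent.X262.Top (Lines SmCub)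
open Crest.Agent.X262.Alg44 (Red Pre)
open Crest.Agent.X262.Rig38 (plk pv qv T3 Sy ten cub tri OnL)
open Crest.Agent.X262.Surf (B2)
open Crest.Agent.X262.Pui27 (Hn)

variable {F E : Type} [Field F] [Algebra ℂ F] [Field E] [Algebra ℂ E] {R : Red F E}
  {P : PModel ℂ F} {G₀ : MvPolynomial (Fin 6) ℂ} {L : Type} [Field L] [Algebra ℂ L]
  {L' : Type} [Field L'] [Algebra ℂ L']

theorem trdeg_le_four (b : B2 E) (ι ι' : E →ₐ[ℂ] L')
    (gen : IntermediateField.adjoin ℂ (Set.range ι ∪ Set.range ι') = ⊤) :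
    Algebra.trdeg ℂ L' ≤ 4 := by
  obtain ⟨s, hs⟩ := exists_isTranscendenceBasis ℂ E
  have hc : Cardinal.mk s = 2 := hs.cardinalMk_eq_trdeg.trans (Brg.Lines.trdeg_of_basis b)
  have key : ∀ (j : E →ₐ[ℂ] L') (t : Set L'), j '' s ⊆ t → ∀ f,
      IsAlgebraic (Algebra.adjoin ℂ t) (j f) := fun j t ht f => by
    have h1 := hs.isAlgebraic.1 f
    rw [Subtype.range_coe] at h1
    have h2 : ∀ x : Algebra.adjoin ℂ s, j x ∈ Algebra.adjoin ℂ t := fun x =>
      Algebra.adjoin_mono ht (by rw [← AlgHom.map_adjoin]; exact ⟨x, x.2, rfl⟩)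
    exact h1.ringHom_of_comp_eq (((j : E →+* L').comp (Algebra.adjoin ℂ s).val.toRingHom).codRestrict
      (Algebra.adjoin ℂ t) h2) (j : E →+* L')
      (fun x y e => Subtype.ext (j.injective (congrArg Subtype.val e))) rfl
  have : Algebra.IsAlgebraic (Algebra.adjoin ℂ (ι '' s ∪ ι' '' s)) L' :=
    IntermediateField.isAlgebraic_adjoin_iff_top.1 ⟨fun x => by
      have hx : x ∈ IntermediateField.adjoin ℂ (Set.range ι ∪ Set.range ι') :=
        gen ▸ IntermediateField.mem_top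
      induction hx using IntermediateField.adjoin_induction with
      | mem x hx =>
        rcases hx with ⟨f, rfl⟩ | ⟨f, rfl⟩
        · exact IntermediateField.isAlgebraic_adjoin_iff.2 (key ι _ Set.subset_union_left f)
        · exact IntermediateField.isAlgebraic_adjoin_iff.2 (key ι' _ Set.subset_union_right f)
      | algebraMap c =>
        exact isAlgebraic_algebraMap
          (algebraMap ℂ (IntermediateField.adjoin ℂ (ι '' s ∪ ι' '' s)) c)
      | add x y _ _ hx hy => exact hx.add hy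
      | inv x _ hx => exact hx.inv
      | mul x y _ _ hx hy => exact hx.mul hy⟩
  refine (Algebra.IsAlgebraic.trdeg_le_cardinalMk ℂ (ι '' s ∪ ι' '' s)).trans
    ((Cardinal.mk_union_le _ _).trans ((add_le_add Cardinal.mk_image_le
      Cardinal.mk_image_le).trans ?_))
  rw [hc]
  norm_num

theorem four_le_trdeg (Λ : Lines G₀ F L) (R' : Red L L') {a : Fin 8 → L'} (aO : ∀ i, a i ∈ R'.O)
    (a0 : ∀ i, R'.r (a i) = Λ.a i) : 4 ≤ Algebra.trdeg ℂ L' := by
  have h1 : Algebra.IsAlgebraic (Algebra.adjoin ℂ (Set.range Λ.a)) L :=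
    IntermediateField.isAlgebraic_adjoin_iff_top.1
      (Brg.Lines.isAlgebraic_of_fix Λ.inv fun x => (Λ.fix x).1)
  obtain ⟨t, ht, hb⟩ := exists_isTranscendenceBasis_subset (R := ℂ) (Set.range Λ.a)
  choose i hi using fun y : t => ht y.2
  have h2 : AlgebraicIndependent ℂ fun y : t => a (i y) :=
    Red.algIndep_of_r (R := R') (fun y => aO _) (by simpa only [a0, hi] using hb.1)
  rw [← Λ.dim, ← hb.cardinalMk_eq_trdeg]
  exact h2.cardinalMk_le_trdeg

theorem map_cub {A B : Type} [CommRing A] [CommRing B] (f : A →+* B) (c : T3 A) :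
    map f (cub c) = cub fun i j k => f (c i j k) := by
  rw [cub, Rig38.tri_map (map f) c (fun i j k => f (c i j k)) fun _ _ _ => map_C _ _]
  simp only [map_X]
  rfl

theorem smCub_of (hG : SmCub G₀) {c : T3 ℂ} (hc : ∀ i j k, c i j k ∈ R.o)
    (h0 : ∀ i j k, R.z (c i j k) = ten G₀ i j k) : SmCub (cub c) := by
  refine ⟨Rig38.cub_hom c, fun p hp e => by_contra fun hn => ?_⟩
  simp only [not_exists, not_not] at hn
  obtain ⟨i0, hi0⟩ := Function.ne_iff.1 hp
  obtain ⟨i, -, h1, h2⟩ := Red.exists_min (R := R) Finset.univ (a := p) ⟨i0, Finset.mem_univ _, hi0⟩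
  have h3 : ∀ j, (p i)⁻¹ * p j ∈ R.o := fun j => by
    rw [← div_eq_inv_mul]
    exact h2 j (Finset.mem_univ _)
  obtain ⟨q, hu, hd⟩ : ∃ q : MvPolynomial (Fin 6) R.o, R.up q = cub c ∧ R.dn q = G₀ := by
    refine ⟨cub fun i j k => ⟨c i j k, hc i j k⟩, map_cub _ _, (map_cub _ _).trans ?_⟩
    simp only [Red.ζ_apply, h0]
    exact Rig38.cub_ten hG.1
  have key : ∀ (q : MvPolynomial (Fin 6) R.o) (n : ℕ), (R.up q).IsHomogeneous n →
      eval p (R.up q) = 0 → eval (fun j => R.z ((p i)⁻¹ * p j)) (R.dn q) = 0 := fun q n hq e => by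
    rw [← (Red.z_eval h3 q).2, ← coe_aeval_eq_eval, RingHom.coe_coe, Rig38.aeval_hom_mul hq]
    rw [← coe_aeval_eq_eval, RingHom.coe_coe] at e
    rw [e, mul_zero, Red.z_zero]
  have h4 := key q 3 (by rw [hu]; exact Rig38.cub_hom c) (by rw [hu]; exact e)
  rw [hd] at h4
  obtain ⟨l, hl⟩ := hG.2 (fun j => R.z ((p i)⁻¹ * p j)) (fun e => by
    have := congrFun e i
    rw [inv_mul_cancel₀ h1, Red.z_one] at this
    exact one_ne_zero this) h4
  have hu' : R.up (pderiv l q) = pderiv l (cub c) := by rw [← hu]; exact pderiv_map.symm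
  have hd' : R.dn (pderiv l q) = pderiv l G₀ := by rw [← hd]; exact pderiv_map.symm
  have h5 := key (pderiv l q) 2 (by rw [hu']; exact (Rig38.cub_hom c).pderiv)
    (by rw [hu']; exact hn l)
  rw [hd'] at h5
  exact hl h5

/-- the lines of the generic fibre -/
def Dat.lines {Λ : Lines G₀ F L} {G : Pre R P} {h : G.Sm} (D : Dat Λ G h L') (hG : SmCub G₀)
    {c : T3 ℂ} (hc : Sy c) (on : OnL c (pv D.a) (qv D.a)) : Lines (cub c) E L' where
  ι := D.ι
  τ := D.τ
  inv := D.inv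
  gen := D.gen
  dim := D.dim
  a := D.a
  on := (Rig38.onL_iff (Rig38.cub_hom c) D.a).1 (by rwa [Rig38.ten_cub hc])
  fix := D.fix hG

section Od

variable (ν : Valuation L (WithZero (Multiplicative ℤ)))

/-- Hahn series whose coefficients have order `≥ n` -/
def OdH (n : ℕ) : AddSubgroup (Hn L) where
  carrier := {x | ∀ q, ν (x.coeff q) ≤ WithZero.exp (-(n : ℤ))}
  add_mem' hx hy q := (ν.map_add _ _).trans (max_le (hx q) (hy q))
  zero_mem' q := by simp
  neg_mem' hx q := by simpa using hx q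

variable {ν}

theorem OdH_mul {k l : ℕ} {x y : Hn L} (hx : x ∈ OdH ν k) (hy : y ∈ OdH ν l) :
    x * y ∈ OdH ν (k + l) := fun q => by
  rw [HahnSeries.coeff_mul]
  refine ν.map_sum_le fun p _ => ?_
  rw [map_mul, Nat.cast_add, neg_add, WithZero.exp_add]
  exact mul_le_mul' (hx _) (hy _)

theorem OdH_anti {k l : ℕ} (h : k ≤ l) {x : Hn L} (hx : x ∈ OdH ν l) : x ∈ OdH ν k := fun q =>
  (hx q).trans (WithZero.exp_le_exp.2 (by omega))

theorem hm_mem_OdH {K : Type} [Field K] {φ : K →+* L} (h : ∀ f, f ≠ 0 → ν (φ f) = 1) (x : Hn K) :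
    Pui27.hm φ x ∈ OdH ν 0 := fun q => by
  rw [Pui27.coeff_hm]
  by_cases e : x.coeff q = 0
  · simp [e]
  · simp [h _ e]

theorem pu_mem_OdH {n e : ℕ} (he : e ≠ 0) {f : PowerSeries L}
    (h : ∀ d, ν (PowerSeries.coeff d f) ≤ WithZero.exp (-(n : ℤ))) :
    Pui27.pu L e he f ∈ OdH ν n := fun q => by
  by_cases e : (Pui27.pu L e he f).coeff q = 0
  · simp [e]
  · obtain ⟨d, rfl⟩ := Pui27.coeff_pu_ne he e
    rw [Pui27.coeff_pu]
    exact h d

end Od

end Crest.Agent.X262.Deg38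
end
end

-- ▼ part X262/Deg38/Inst
section

/-!
# Row 262, G4 / DEG (helper38), part 4: the lines of the generic fibre of a formal family

* `Tw` : what is used of the fields of Puiseux series; `deg_of`.
-/

set_option autoImplicit false

open PowerSeries

noncomputable section

namespace Crest.Agent.X262.Deg38

open Crest.Agent.X277 Crest.Agent.X277.Lef
open Crest.Agent.X277.BD.Br (oP)
open Crest.Agent.X262.Top (Lines SmCub)
open Crest.Agent.X262.Alg44 (Red Pre Fam LFam)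
open Crest.Agent.X262.Rig38 (plk pv qv T3 Sy ten cub tri OnL)
open Crest.Agent.X262.Surf (B2)
open Crest.Agent.X262.Pui27 (Hn hm pu)

variable {F E : Type} [Field F] [Algebra ℂ F] [Field E] [Algebra ℂ E]
  {P : PModel ℂ F} {G₀ : MvPolynomial (Fin 6) ℂ} {L : Type} [Field L] [Algebra ℂ L]

/-- big fields over the surface and over its square -/
structure Tw (Λ : Lines G₀ F L) (ΩF ΩL : Type) [Field ΩF] [Algebra ℂ ΩF] [Field ΩL]
    [Algebra ℂ ΩL] where
  /-- the reduction -/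
  RF : Red F ΩF
  /-- the reduction -/
  RL : Red L ΩL
  /-- power series -/
  iF : F⟦X⟧ →+* ΩF
  /-- power series -/
  iL : L⟦X⟧ →+* ΩL
  /-- constant power series -/
  t : ℂ⟦X⟧ →+* ℂ
  /-- the first projection -/
  p : ΩF →ₐ[ℂ] ΩL
  /-- the swap -/
  s : ΩL →ₐ[ℂ] ΩL
  /-- the coefficients -/
  co : ΩL →+* Hn L
  iF_O : ∀ f, iF f ∈ RF.O ∧ RF.r (iF f) = constantCoeff f
  iL_O : ∀ f, iL f ∈ RL.O ∧ RL.r (iL f) = constantCoeff f
  iL_map : ∀ g, iL (map (algebraMap ℂ L) g) = algebraMap ℂ ΩL (t g)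
  p_i : ∀ f, p (iF f) = iL (map (Λ.ι : F →+* L) f)
  s_i : ∀ f, s (iL f) = iL (map (Λ.τ : L →+* L) f)
  s_s : ∀ x, s (s x) = x
  p_O : ∀ x ∈ RF.O, p x ∈ RL.O ∧ RL.r (p x) = Λ.ι (RF.r x)
  s_O : ∀ x ∈ RL.O, s x ∈ RL.O ∧ RL.r (s x) = Λ.τ (RL.r x)
  co_p : ∀ x, ∃ y, co (p x) = hm (Λ.ι : F →+* L) y
  co_s : ∀ x, co (s x) = hm (Λ.τ : L →+* L) (co x)
  co_i : ∀ f, co (iL f) = pu L 1 one_ne_zero f
  co_r : ∀ x ∈ RL.O, RL.r x = (co x).coeff 0

theorem deg_of {Λ : Lines G₀ F L} {ΩF ΩL : Type} [Field ΩF] [Algebra ℂ ΩF] [Field ΩL]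
    [Algebra ℂ ΩL] (W : Tw Λ ΩF ΩL) {T : Fam P} (N : LFam T Λ) (j : E →ₐ[ℂ] ΩF)
    (G : Pre (W.RF.comap j) P) (h : G.Sm) (b : B2 E) (hG : SmCub G₀)
    (hFS : ∀ f ∈ T.FS 1, ∃ s ∈ (oP (G.gen h)).Sec, j s = W.iF f) :
    ∃ (G' : MvPolynomial (Fin 6) ℂ) (L' : Type) (_ : Field L') (_ : Algebra ℂ L'),
      SmCub G' ∧ Nonempty (Lines G' E L') := by
  obtain ⟨β, hβ, eβ⟩ := hFS _ N.fsβ
  have β0 : W.RF.r (j β) ≠ 0 := by rw [eβ, (W.iF_O _).2]; exact N.β0
  have β1 : j β ≠ 0 := Red.ne_zero β0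
  have hρ : ∀ k, ∃ ρ : E, j ρ = W.iF (N.ρ k) := fun k => by
    obtain ⟨s, -, e⟩ := hFS _ (N.fs k 1 N.r_pos)
    exact ⟨s / β, by rw [map_div₀, e, map_mul, pow_one, ← eβ, mul_div_cancel_right₀ _ β1]⟩
  choose ρ eρ using hρ
  let Lt : IntermediateField ℂ ΩL := IntermediateField.adjoin ℂ
    (Set.range (W.p.comp j) ∪ Set.range (W.s.comp (W.p.comp j)))
  have m1 : ∀ f, W.p (j f) ∈ Lt := fun f => IntermediateField.subset_adjoin _ _ (Or.inl ⟨f, rfl⟩)
  have m2 : ∀ f, W.s (W.p (j f)) ∈ Lt := fun f =>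
    IntermediateField.subset_adjoin _ _ (Or.inr ⟨f, rfl⟩)
  have ms : ∀ x ∈ Lt, W.s x ∈ Lt := fun x hx =>
    (IntermediateField.adjoin_le_iff (T := Lt.comap W.s)).2 (by
      rintro _ (⟨f, rfl⟩ | ⟨f, rfl⟩)
      · exact m2 f
      · change W.s (W.s (W.p (j f))) ∈ Lt
        rw [W.s_s]
        exact m1 f) hx
  let ι : E →ₐ[ℂ] Lt := (W.p.comp j).codRestrict Lt.toSubalgebra m1
  let τ : Lt →ₐ[ℂ] Lt := (W.s.comp Lt.val).codRestrict Lt.toSubalgebra fun x => ms x x.2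
  have gen : IntermediateField.adjoin ℂ (Set.range ι ∪ Set.range fun x => τ (ι x)) = ⊤ := by
    refine IntermediateField.map_injective Lt.val ?_
    rw [IntermediateField.adjoin_map, ← AlgHom.fieldRange_eq_map, IntermediateField.fieldRange_val,
      Set.image_union, ← Set.range_comp, ← Set.range_comp]
    rfl
  have ipl : ∀ i k, W.iL (plk (pv N.a) (qv N.a) i k) =
      plk (pv fun i => W.iL (N.a i)) (qv fun i => W.iL (N.a i)) i k := map_plk W.iL N.a
  have pl : ∀ i k, W.iL (N.w * plk (pv N.a) (qv N.a) i k) = ∑ m, ∑ l,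
      W.t (N.e i k m l) • (W.p (j (ρ m)) * W.s (W.p (j (ρ l)))) := fun i k => by
    simp only [N.pl, map_sum, Algebra.smul_def, map_mul, eρ, W.p_i, W.s_i, ← W.iL_map]
    rfl
  have mpl : ∀ i k, W.iL (N.w * plk (pv N.a) (qv N.a) i k) ∈ Lt := fun i k => by
    rw [pl]
    exact sum_mem fun m _ => sum_mem fun l _ => Lt.smul_mem (mul_mem (m1 _) (m2 _))
  have mw : W.iL N.w ∈ Lt := by simpa [Rig38.plk01] using mpl 0 1
  have w0 : W.RL.r (W.iL N.w) ≠ 0 := by rw [(W.iL_O _).2]; exact N.w0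
  have ma : ∀ i, W.iL (N.a i) ∈ Lt := fun i => by
    obtain ⟨k, l, e⟩ := exists_plk_eq N.a i
    have := div_mem (mpl k l) mw
    rwa [map_mul, mul_div_cancel_left₀ _ (Red.ne_zero w0), ← e] at this
  let a : Fin 8 → Lt := fun i => ⟨W.iL (N.a i), ma i⟩
  have apl : ∀ i k, ((plk (pv a) (qv a) i k : Lt) : ΩL) = W.iL (plk (pv N.a) (qv N.a) i k) :=
    fun i k => (map_plk (Lt.val : Lt →+* ΩL) a i k).trans (ipl i k).symm
  have a0 : ∀ i, (W.RL.comap Lt.val).r (a i) = Λ.a i := fun i => (W.iL_O _).2.trans (N.a0 i)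
  have o1 : ∀ x, W.co (W.p x) ∈ OdH N.ν 0 := fun x => by
    obtain ⟨y, e⟩ := W.co_p x
    rw [e]
    exact hm_mem_OdH N.ν1 y
  have o2 : ∀ x, W.co (W.s (W.p x)) ∈ OdH N.ν 0 := fun x => by
    obtain ⟨y, e⟩ := W.co_p x
    rw [W.co_s, e, Pui27.hm_hm]
    exact hm_mem_OdH N.ν2 y
  let Od : ℕ → Submodule ℂ Lt := fun n =>
    { carrier := {x | W.co x ∈ OdH N.ν n}
      add_mem' := fun {x y} hx hy => by
        change W.co (x + y) ∈ OdH N.ν n
        rw [map_add]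
        exact add_mem hx hy
      zero_mem' := by
        change W.co 0 ∈ OdH N.ν n
        rw [map_zero]
        exact zero_mem _
      smul_mem' := fun c x hx => by
        change W.co (c • (x : ΩL)) ∈ OdH N.ν n
        rw [Algebra.smul_def, map_mul, ← W.p.commutes, ← zero_add n]
        exact OdH_mul (o1 _) hx }
  let D : Dat Λ G h Lt :=
    { pf := N.pf
      R' := W.RL.comap Lt.val
      ι := ι
      τ := τ
      inv := fun x => Subtype.ext (W.s_s x)
      gen := gen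
      dim := le_antisymm (trdeg_le_four b ι (τ.comp ι) gen)
        (four_le_trdeg Λ (W.RL.comap Lt.val) (fun i => (W.iL_O _).1) a0)
      ιO := fun f hf => W.p_O _ hf
      τO := fun x hx => W.s_O _ hx
      r := N.r
      r_pos := N.r_pos
      n := N.n
      ρ := ρ
      β := β
      βO := by
        change j β ∈ W.RF.O
        rw [eβ]
        exact (W.iF_O _).1
      β0 := β0
      fs := fun k => by
        obtain ⟨s, hs, e⟩ := hFS _ (N.fs k N.r le_rfl)
        rw [map_mul, map_pow, ← eρ, ← eβ, ← map_pow, ← map_mul] at e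
        exact j.injective e ▸ hs
      fsβ := hβ
      a := a
      aO := fun i => (W.iL_O _).1
      a0 := a0
      aτ := fun i => Subtype.ext ((W.s_i _).trans (congrArg W.iL (N.aτ i)))
      w := ⟨_, mw⟩
      wO := (W.iL_O _).1
      w0 := w0
      wτ := Subtype.ext (by
        change W.s (W.iL N.w ^ 2) = W.iL N.w ^ 2
        rw [← map_pow, W.s_i, N.wτ])
      e := fun i k m l => W.t (N.e i k m l)
      pl := fun i k => Subtype.ext (by
        change W.iL N.w * (plk (pv a) (qv a) i k : Lt) = Lt.val _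
        rw [apl, ← map_mul, pl]
        simp only [map_sum, map_smul, map_mul]
        rfl)
      ν := N.ν
      ν1 := N.ν1
      ν2 := N.ν2
      Od := Od
      Od_mul := fun k l x hx y hy => by
        change W.co (x * y) ∈ OdH N.ν (k + l)
        rw [map_mul]
        exact OdH_mul hx hy
      Od_anti := fun k l hkl x hx => OdH_anti hkl hx
      Od_ι := fun f => o1 _
      Od_τ := fun f => o2 _
      Od_r := fun k x hx hO => by
        change N.ν (W.RL.r x) ≤ _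
        rw [W.co_r x hO]
        exact hx 0
      m := N.m
      ord := fun i k => by
        change W.co (W.iL N.w * (plk (pv a) (qv a) i k : Lt)) ∈ OdH N.ν N.m
        rw [apl, ← map_mul, W.co_i]
        exact pu_mem_OdH _ (N.ord i k)
      lam := N.lam
      lam0 := N.lam0
      sec := N.sec }
  have hc : ∀ g, W.t g ∈ W.RL.o ∧ W.RL.z (W.t g) = constantCoeff g := fun g => by
    have h1 : W.t g ∈ W.RL.o := by
      rw [Red.mem_o, ← W.iL_map]
      exact (W.iL_O _).1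
    refine ⟨h1, (algebraMap ℂ L).injective ?_⟩
    rw [← W.RL.r_cst h1, ← W.iL_map, (W.iL_O _).2]
    rfl
  have tr : ∀ u v w : Fin 6 → Lt, ∀ u' v' w' : Fin 6 → L⟦X⟧, (∀ l, (u l : ΩL) = W.iL (u' l)) →
      (∀ l, (v l : ΩL) = W.iL (v' l)) → (∀ l, (w l : ΩL) = W.iL (w' l)) → tri N.c u' v' w' = 0 →
      tri (fun i j k => W.t (N.c i j k)) u v w = 0 := fun u v w u' v' w' hu hv hw e => by
    refine Lt.val.injective ?_
    have := Rig38.tri_map W.iL N.c (fun i j k => W.t (N.c i j k)) (fun _ _ _ => W.iL_map _) u' v' w'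
    rw [e, map_zero] at this
    change Lt.val _ = Lt.val 0
    rw [Rig38.tri_alg, map_zero, this]
    simp only [← hu, ← hv, ← hw]
    rfl
  have hp : ∀ l, ((pv a l : Lt) : ΩL) = W.iL (pv N.a l) := fun l =>
    (Rig38.pv_map (Lt.val : Lt →+* ΩL) a l).trans (Rig38.pv_map W.iL N.a l).symm
  have hq : ∀ l, ((qv a l : Lt) : ΩL) = W.iL (qv N.a l) := fun l =>
    (Rig38.qv_map (Lt.val : Lt →+* ΩL) a l).trans (Rig38.qv_map W.iL N.a l).symm
  exact ⟨cub fun i j k => W.t (N.c i j k), Lt, inferInstance, inferInstance,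
    smCub_of (R := W.RL) hG (fun i j k => (hc _).1) fun i j k => (hc _).2.trans (N.c0 i j k),
    ⟨D.lines hG ⟨fun i j k => congrArg W.t (N.sy.l i j k), fun i j k => congrArg W.t (N.sy.r i j k)⟩
      ⟨tr _ _ _ _ _ _ hp hp hp N.on.h0, tr _ _ _ _ _ _ hp hp hq N.on.h1,
        tr _ _ _ _ _ _ hp hq hq N.on.h2, tr _ _ _ _ _ _ hq hq hq N.on.h3⟩⟩⟩

end Crest.Agent.X262.Deg38
end
end

-- ▼ part X262/Pui27/Fld

/-!
# Row 262, G4/ALG (helper27): the field of Puiseux series over `K` as a field over `ℂ`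

* `PE K` : Puiseux series over `K`, an algebra over `ℂ` through `kap : ℂ ≃ PuF ℂ`;
* `hs`, `ie e he`, `th e he`, `pm φ`, `tq q` (`= t ^ q` as a complex number);
* `red K : Red K (PE K)`, `comap R j` : the reduction;
* `lev_ie`, `lev_th`, `exists_ie` : level lemmas.
-/

set_option autoImplicit false

open HahnSeries (single)
open scoped PowerSeries

noncomputable section

namespace Crest.Agent.X262.Pui27

open Crest.Agent.X262.Alg44 (Red)

/-- Puiseux series over `K` -/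
def PE (K : Type) [Field K] : Type := PuF K

variable {K L M : Type} [Field K] [Field L] [Field M] {e : ℕ}

instance : Field (PE K) := inferInstanceAs (Field (PuF K))

/-- the underlying Hahn series -/
def hs : PE K →+* Hn K := (PuF K).subtype

theorem hs_injective : Function.Injective (hs : PE K → Hn K) := Subtype.val_injective

theorem hs_mem (x : PE K) : hs x ∈ Pu K := x.2


/-- functoriality -/
def pmR (f : K →+* L) : PE K →+* PE L :=
  ((hm f).comp hs).codRestrict (PuF L) fun x => hm_mem_Pu f (hs_mem x)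


variable (e) in
/-- power series in `t ^ (1 / e)` -/
def ie (he : e ≠ 0) : K⟦X⟧ →+* PE K := (pu K e he).codRestrict (PuF K) (pu_mem_Pu he)

theorem hs_ie (he : e ≠ 0) (f : K⟦X⟧) : hs (ie e he f) = pu K e he f := rfl

theorem ie_injective (he : e ≠ 0) : Function.Injective (ie e he : K⟦X⟧ → PE K) :=
  fun _ _ h => pu_injective he (congrArg hs h)

theorem ie_expand (he : e ≠ 0) {a : ℕ} (ha : a ≠ 0) (f : K⟦X⟧) :
    ie (a * e) (mul_ne_zero ha he) (PowerSeries.expand a ha f) = ie e he f :=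
  hs_injective (pu_expand he ha f)

theorem ie_exp (he : e ≠ 0) {k : ℕ} (hk : k ≠ 0) (f : K⟦X⟧) :
    ie (e * k) (mul_ne_zero he hk) (PowerSeries.expand k hk f) = ie e he f := by
  simpa only [mul_comm k e] using ie_expand he hk f



theorem pmR_ie (φ : K →+* L) (he : e ≠ 0) (f : K⟦X⟧) :
    pmR φ (ie e he f) = ie e he (PowerSeries.map φ f) := hs_injective (hm_pu he φ f)

/-- a complex number as a Hahn series -/
def kp : ℂ →+* Hn ℂ := (PuF ℂ).subtype.comp kap.toRingHom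

theorem kp_injective : Function.Injective kp := kp.injective

theorem kp_mem (c : ℂ) : kp c ∈ Pu ℂ := (kap c).2

theorem exists_kp {x : Hn ℂ} (h : x ∈ Pu ℂ) : ∃ c, kp c = x :=
  ⟨kap.symm ⟨x, h⟩, congrArg Subtype.val (kap.apply_symm_apply _)⟩

variable (e) in
/-- a power series in `t ^ (1 / e)` as a complex number -/
def th (he : e ≠ 0) : ℂ⟦X⟧ →+* ℂ :=
  kap.symm.toRingHom.comp ((pu ℂ e he).codRestrict (PuF ℂ) (pu_mem_Pu he))

theorem kp_th (he : e ≠ 0) (g : ℂ⟦X⟧) : kp (th e he g) = pu ℂ e he g :=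
  congrArg Subtype.val (kap.apply_symm_apply _)





/-- `t ^ q` as a complex number -/
def tq (q : ℚ) : ℂ := (exists_kp (single_mem_Pu q 1)).choose

theorem kp_tq (q : ℚ) : kp (tq q) = single q 1 := (exists_kp (single_mem_Pu q 1)).choose_spec






/-- the level lemma for constants -/
theorem lev_th {ι : Type*} [Finite ι] {c : ι → ℂ} (h : ∀ i, kp (c i) ∈ O ℂ) :
    ∃ (e : ℕ) (he : e ≠ 0) (g : ι → ℂ⟦X⟧), ∀ i, th e he (g i) = c i := by
  obtain ⟨e, he, g, hg⟩ := lev (fun i => kp_mem (c i)) h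
  exact ⟨e, he, g, fun i => kp_injective (by rw [kp_th, hg])⟩

/-- the level lemma -/
theorem lev_ie {ι : Type*} [Finite ι] {x : ι → PE K} (h : ∀ i, hs (x i) ∈ O K) :
    ∃ (e : ℕ) (he : e ≠ 0) (f : ι → K⟦X⟧), ∀ i, ie e he (f i) = x i := by
  obtain ⟨e, he, f, hf⟩ := lev (fun i => hs_mem (x i)) h
  exact ⟨e, he, f, fun i => hs_injective (hf i)⟩


variable [Algebra ℂ K] [Algebra ℂ L] [Algebra ℂ M]

instance : Algebra ℂ (PE K) :=
  ((pmR (algebraMap ℂ K)).comp (kap.toRingHom : ℂ →+* PuF ℂ)).toAlgebra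

theorem hs_alg (c : ℂ) : hs (algebraMap ℂ (PE K) c) = hm (algebraMap ℂ K) (kp c) := rfl

theorem hs_smul (c : ℂ) (x : PE K) : hs (c • x) = hm (algebraMap ℂ K) (kp c) * hs x := by
  rw [Algebra.smul_def, map_mul, hs_alg]

theorem hs_tq (q : ℚ) : hs (algebraMap ℂ (PE K) (tq q)) = single q 1 := by
  rw [hs_alg, kp_tq, hm_single, map_one]

theorem hs_tq_smul (q : ℚ) (x : PE K) : hs (tq q • x) = single q 1 * hs x := by
  rw [Algebra.smul_def, map_mul, hs_tq]

theorem alg_th (he : e ≠ 0) (g : ℂ⟦X⟧) :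
    algebraMap ℂ (PE K) (th e he g) = ie e he (PowerSeries.map (algebraMap ℂ K) g) :=
  hs_injective (by rw [hs_alg, kp_th, hm_pu, hs_ie])

theorem ie_map (he : e ≠ 0) (g : ℂ⟦X⟧) :
    ie e he (PowerSeries.map (algebraMap ℂ K) g) = algebraMap ℂ (PE K) (th e he g) :=
  (alg_th he g).symm



theorem alg_mem_O {c : ℂ} : hs (algebraMap ℂ (PE K) c) ∈ O K ↔ kp c ∈ O ℂ :=
  ⟨mem_O_of_hm (algebraMap ℂ K).injective, hm_mem_O _⟩

/-- functoriality -/
def pm (φ : K →ₐ[ℂ] L) : PE K →ₐ[ℂ] PE L :=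
  ⟨pmR φ, fun c => hs_injective (by
    ext q
    exact φ.commutes _)⟩

theorem hs_pm (φ : K →ₐ[ℂ] L) (x : PE K) : hs (pm φ x) = hm (φ : K →+* L) (hs x) := rfl


theorem pm_ie (φ : K →ₐ[ℂ] L) (he : e ≠ 0) (f : K⟦X⟧) :
    pm φ (ie e he f) = ie e he (PowerSeries.map (φ : K →+* L) f) := pmR_ie _ he f

theorem pm_pm (ψ : L →ₐ[ℂ] M) (φ : K →ₐ[ℂ] L) (x : PE K) :
    pm ψ (pm φ x) = pm (ψ.comp φ) x := rfl

theorem pm_id (x : PE K) : pm (AlgHom.id ℂ K) x = x := rfl

/-- linear maps act on the coefficients -/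
theorem map_hm_mul (φ : K →ₗ[ℂ] L) (c : Hn ℂ) (x : Hn K) :
    (hm (algebraMap ℂ K) c * x).map φ = hm (algebraMap ℂ L) c * x.map φ := by
  ext q
  have h1 : ∀ (N : Type) [Field N] [Algebra ℂ N], (hm (algebraMap ℂ N) c).support ⊆ c.support :=
    fun N _ _ p hp h => hp (by rw [coeff_hm, h, map_zero])
  have h2 : (x.map φ).support ⊆ x.support := fun p hp h =>
    hp (by rw [HahnSeries.map_coeff, h, map_zero])
  rw [HahnSeries.map_coeff, HahnSeries.coeff_mul_left' c.isPWO_support (h1 K), map_sum,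
    HahnSeries.coeff_mul_left' c.isPWO_support (h1 L)]
  refine ((Finset.sum_subset (fun p hp => ?_) fun p hp h => ?_).trans
    (Finset.sum_congr rfl fun p _ => ?_)).symm
  · obtain ⟨h3, h4, h5⟩ := Finset.mem_antidiagonal.1 hp
    exact Finset.mem_antidiagonal.2 ⟨h3, h2 h4, h5⟩
  · obtain ⟨h3, -, h5⟩ := Finset.mem_antidiagonal.1 hp
    rw [not_not.1 fun h6 => h (Finset.mem_antidiagonal.2 ⟨h3, h6, h5⟩), mul_zero]
  · rw [coeff_hm, coeff_hm, HahnSeries.map_coeff, ← Algebra.smul_def, ← Algebra.smul_def, map_smul]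

/-- a linear map acts on the coefficients -/
def lm0 (φ : K →ₗ[ℂ] L) (x : PE K) : PE L :=
  ⟨(hs x).map φ, (hs_mem x).imp fun _ h => ⟨h.1, map_mem_Sp φ h.2⟩⟩

theorem hs_lm0 (φ : K →ₗ[ℂ] L) (x : PE K) : hs (lm0 φ x) = (hs x).map φ := rfl

/-- a linear map acts on the coefficients -/
def lmap (φ : K →ₗ[ℂ] L) : PE K →ₗ[ℂ] PE L where
  toFun := lm0 φ
  map_add' x y := hs_injective (by
    ext q
    exact φ.map_add _ _)
  map_smul' c x := hs_injective (by
    rw [RingHom.id_apply, hs_smul, hs_lm0, hs_lm0, hs_smul, map_hm_mul])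

theorem coeff_lmap (φ : K →ₗ[ℂ] L) (x : PE K) (q : ℚ) :
    (hs (lmap φ x)).coeff q = φ ((hs x).coeff q) := rfl

/-- the field of Puiseux series over `ℂ` is `ℂ` -/
theorem alg_surj : Function.Surjective (algebraMap ℂ (PE ℂ)) := fun x =>
  (exists_kp (hs_mem x)).imp fun _ h => hs_injective (by rw [hs_alg, h]; rfl)

/-- normalisation of a finite family -/
theorem exists_tq {ι : Type*} [Finite ι] {x : ι → PE K} (h : ∃ i, x i ≠ 0) :
    ∃ q : ℚ, (∀ i, hs (tq q • x i) ∈ O K) ∧ ∃ i, (hs (tq q • x i)).coeff 0 ≠ 0 := by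
  simpa only [hs_tq_smul] using exists_nrm (x := fun i => hs (x i))
    (h.imp fun i hi h1 => hi (hs_injective (h1.trans (map_zero _).symm)))

theorem indep_of_coeff {ι : Type*} [Fintype ι] {v : ι → PE K} (h0 : ∀ i, hs (v i) ∈ O K)
    (h : LinearIndependent ℂ fun i => (hs (v i)).coeff 0) : LinearIndependent ℂ v := by
  refine Fintype.linearIndependent_iff.2 fun c hc => by_contra fun h1 => ?_
  obtain ⟨q, h2, i, h3⟩ := exists_nrm (x := fun i => kp (c i))
    ((not_forall.1 h1).imp fun i hi => (map_ne_zero kp).2 hi)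
  refine h3 (Fintype.linearIndependent_iff.1 h (fun i => (single q 1 * kp (c i)).coeff 0) ?_ i)
  have h4 := congrArg (fun x => (hs (tq q • x)).coeff 0) hc
  simp only [smul_zero, map_zero, HahnSeries.coeff_zero, Finset.smul_sum, map_sum, smul_smul,
    HahnSeries.coeff_sum] at h4
  refine (Finset.sum_congr rfl fun j _ => ?_).trans h4
  rw [hs_smul, map_mul, kp_tq, coeff_zero_mul (hm_mem_O _ (h2 j)) (h0 j), coeff_hm,
    Algebra.smul_def]

/-- **Gauss elimination** -/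
theorem exists_fam (V : Submodule ℂ (PE K)) [Module.Finite ℂ V] (k : ℕ)
    (hk : k ≤ Module.finrank ℂ V) : ∃ v : Fin k → PE K, (∀ i, v i ∈ V) ∧ (∀ i, hs (v i) ∈ O K) ∧
      LinearIndependent ℂ fun i => (hs (v i)).coeff 0 := by
  induction k with
  | zero => exact ⟨Fin.elim0, fun i => i.elim0, fun i => i.elim0, linearIndependent_empty_type⟩
  | succ k ih =>
    obtain ⟨v, h1, h2, h3⟩ := ih (Nat.le_of_succ_le hk)
    obtain ⟨φ, hφ⟩ := LinearMap.exists_leftInverse_of_injective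
      (Fintype.linearCombination ℂ fun i => (hs (v i)).coeff 0)
      (LinearMap.ker_eq_bot.2 (linearIndependent_iff_injective_fintypeLinearCombination.1 h3))
    let ε : ℂ ≃ₗ[ℂ] PE ℂ := LinearEquiv.ofBijective (Algebra.linearMap ℂ (PE ℂ))
      ⟨(algebraMap ℂ (PE ℂ)).injective, alg_surj⟩
    let Φ : V →ₗ[ℂ] Fin k → ℂ := LinearMap.pi fun i =>
      ε.symm.toLinearMap ∘ₗ lmap (LinearMap.proj i ∘ₗ φ) ∘ₗ V.subtype
    obtain ⟨u, hu, h0⟩ := Submodule.exists_mem_ne_zero_of_ne_bot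
      (LinearMap.ker_ne_bot_of_finrank_lt (f := Φ) (by simpa using hk))
    have h4 : ∀ q, φ ((hs u.1).coeff q) = 0 := fun q => funext fun i => by
      have h5 : lmap (LinearMap.proj i ∘ₗ φ) u.1 = 0 :=
        ε.symm.map_eq_zero_iff.1 (congrFun (LinearMap.mem_ker.1 hu) i)
      exact (coeff_lmap (LinearMap.proj i ∘ₗ φ) u.1 q).symm.trans (by rw [h5, map_zero, HahnSeries.coeff_zero])
    obtain ⟨q, h5, -, h6⟩ := exists_tq (x := fun _ : Unit => u.1) ⟨(), fun h => h0 (Subtype.ext h)⟩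
    refine ⟨Fin.cons (tq q • u.1) v, fun i => Fin.cases (V.smul_mem _ u.2) h1 i,
      fun i => Fin.cases (h5 ()) h2 i, ?_⟩
    rw [show (fun i => (hs ((Fin.cons (tq q • u.1) v : Fin (k + 1) → PE K) i)).coeff 0) =
      Fin.cons ((hs (tq q • u.1)).coeff 0) fun i => (hs (v i)).coeff 0 from
        funext fun i => Fin.cases rfl (fun _ => rfl) i]
    refine linearIndependent_finCons.2 ⟨h3, fun h => h6 ?_⟩
    rw [← Fintype.range_linearCombination] at h
    obtain ⟨c, hc⟩ := h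
    have h7 : c = 0 := by
      rw [← LinearMap.id_apply (R := ℂ) c, ← hφ, LinearMap.comp_apply, hc, hs_tq_smul,
        coeff_zero_single_mul, h4]
    rw [← hc, h7, map_zero]

variable (K) in
/-- **the reduction** -/
def red : Red K (PE K) where
  O := (O K).comap hs
  r x := (hs x).coeff 0
  r_add _ _ := rfl
  r_mul hf hg := coeff_zero_mul hf hg
  r_one := (rd K).map_one
  inv_mem {f} _ h := Subring.mem_comap.2 (map_inv₀ (hs (K := K)) f ▸ inv_mem_O h)
  val c := by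
    simpa only [Subring.mem_comap, map_inv₀] using mem_O_or_inv (hs (algebraMap ℂ (PE K) c))
  z c := (kp c).coeff 0
  r_cst _ := rfl
  z_sur c₀ := (exists_kp (single_mem_Pu 0 c₀)).imp fun c (h : kp c = _) =>
    ⟨alg_mem_O.2 (h ▸ single_mem_O le_rfl c₀), by rw [h, HahnSeries.coeff_single_same]⟩
  ge V _ := by
    obtain ⟨v, h1, h2, h3⟩ := exists_fam V _ le_rfl
    refine ⟨_, v, h2, Submodule.eq_of_le_of_finrank_eq
      (Submodule.span_le.2 (Set.range_subset_iff.2 h1)) ?_, h3⟩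
    rw [finrank_span_eq_card (indep_of_coeff h2 h3), Fintype.card_fin]


theorem red_r (x : PE K) : (red K).r x = (hs x).coeff 0 := rfl


theorem mem_red_o {c : ℂ} : c ∈ (red K).o ↔ kp c ∈ O ℂ := alg_mem_O

theorem ie_mem (he : e ≠ 0) (f : K⟦X⟧) : ie e he f ∈ (red K).O := pu_mem_O he f

theorem r_ie (he : e ≠ 0) (f : K⟦X⟧) : (red K).r (ie e he f) = PowerSeries.constantCoeff f :=
  coeff_zero_pu he f



theorem pm_mem (φ : K →ₐ[ℂ] L) {x : PE K} : pm φ x ∈ (red L).O ↔ x ∈ (red K).O :=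
  ⟨mem_O_of_hm (φ : K →+* L).injective, hm_mem_O _⟩

theorem r_pm (φ : K →ₐ[ℂ] L) (x : PE K) : (red L).r (pm φ x) = φ ((red K).r x) := rfl

theorem lev_red {ι : Type*} [Finite ι] {x : ι → PE K} (h : ∀ i, x i ∈ (red K).O) :
    ∃ (e : ℕ) (he : e ≠ 0) (f : ι → K⟦X⟧), ∀ i, ie e he (f i) = x i := lev_ie h

theorem lev_red_o {ι : Type*} [Finite ι] {c : ι → ℂ} (h : ∀ i, c i ∈ (red K).o) :
    ∃ (e : ℕ) (he : e ≠ 0) (g : ι → ℂ⟦X⟧), ∀ i, th e he (g i) = c i :=
  lev_th fun i => mem_red_o.1 (h i)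

theorem lev_one {x : PE K} (h : x ∈ (red K).O) : ∃ (e : ℕ) (he : e ≠ 0) (f : K⟦X⟧), ie e he f = x :=
  let ⟨e, he, f, hf⟩ := lev_red (x := fun _ : Unit => x) fun _ => h
  ⟨e, he, f (), hf ()⟩

theorem lev_one_o {c : ℂ} (h : c ∈ (red K).o) : ∃ (e : ℕ) (he : e ≠ 0) (g : ℂ⟦X⟧), th e he g = c :=
  let ⟨e, he, g, hg⟩ := lev_red_o (c := fun _ : Unit => c) fun _ => h
  ⟨e, he, g (), hg ()⟩

end Crest.Agent.X262.Pui27
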